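import Vale.Agent.P305N.Defs

/-!
# The explicit fractional matching: sums over keys and the basic identity
-/

namespace Vale.Agent.P305N

open Vale.Agent.P305E Vale.Agent.P305C Vale.Agent.P305LC Finset

/-! ### Lists of amounts -/

@[simp] theorem ms_nil (v : ℕ) : ms [] v = 0 := rfl
@[simp] theorem tot_nil : tot [] = 0 := rfl
theorem ms_cons (p : ℕ × ℕ) (L : List (ℕ × ℕ)) (v : ℕ) :
    ms (p :: L) v = (if p.1 = v then p.2 else 0) + ms L v := by simp [ms]
theorem tot_cons (p : ℕ × ℕ) (L : List (ℕ × ℕ)) : tot (p :: L) = p.2 + tot L := by simp [tot]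
theorem ms_append (L L' : List (ℕ × ℕ)) (v : ℕ) : ms (L ++ L') v = ms L v + ms L' v := by simp [ms]
theorem tot_append (L L' : List (ℕ × ℕ)) : tot (L ++ L') = tot L + tot L' := by simp [tot]

theorem ms_le_tot (L : List (ℕ × ℕ)) (v : ℕ) : ms L v ≤ tot L := by
  induction L with
  | nil => simp
  | cons p L ih => rw [ms_cons, tot_cons]; split_ifs <;> omega

theorem le_ms {L : List (ℕ × ℕ)} {p : ℕ × ℕ} (h : p ∈ L) : p.2 ≤ ms L p.1 := by
  induction L with
  | nil => simp at h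
  | cons q L ih =>
    rw [ms_cons]
    rcases List.mem_cons.1 h with rfl | h
    · simp
    · have := ih h; omega

theorem sum_ms (L : List (ℕ × ℕ)) (Z : Finset ℕ) :
    ∑ v ∈ Z, ms L v = (L.map fun p => if p.1 ∈ Z then p.2 else 0).sum := by
  induction L with
  | nil => simp
  | cons p L ih => simp only [ms_cons, sum_add_distrib, ih, List.map_cons, List.sum_cons,
      sum_ite_eq]

theorem sum_ms_add (L : List (ℕ × ℕ)) (Z : Finset ℕ) :
    ∑ v ∈ Z, ms L v + (L.map fun p => if p.1 ∈ Z then 0 else p.2).sum = tot L := by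
  rw [sum_ms]
  induction L with
  | nil => simp
  | cons p L ih => simp only [List.map_cons, List.sum_cons, tot_cons]; split_ifs <;> omega

theorem sum_ms_le (L : List (ℕ × ℕ)) (Z : Finset ℕ) : ∑ v ∈ Z, ms L v ≤ tot L :=
  sum_ms_add L Z ▸ Nat.le_add_right _ _

theorem length_le_tot {L : List (ℕ × ℕ)} (h : ∀ p ∈ L, 0 < p.2) : L.length ≤ tot L := by
  induction L with
  | nil => simp
  | cons p L ih =>
    have := h p (by simp)
    have := ih fun q hq => h q (by simp [hq])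
    rw [tot_cons, List.length_cons]; omega

theorem ms_pos {L : List (ℕ × ℕ)} {v : ℕ} (h : ms L v ≠ 0) : ∃ p ∈ L, p.1 = v ∧ 0 < p.2 := by
  induction L with
  | nil => simp at h
  | cons q L ih =>
    rw [ms_cons] at h
    by_cases e : q.1 = v ∧ 0 < q.2
    · exact ⟨q, by simp, e⟩
    · obtain ⟨p, h1, h2⟩ := ih (by split_ifs at h <;> omega)
      exact ⟨p, by simp [h1], h2⟩

/-! ### Sums over dyadic intervals -/

section dy
variable {R : Type} [AddCommMonoid R]

/-- The sum of `w k` over the keys below the node `(j, q)`. -/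
def dy (b : ℕ) (w : ℕ → R) (j q : ℕ) : R := ∑ k ∈ range (2 ^ b), if k / 2 ^ j = q then w k else 0

theorem dy_succ (b : ℕ) (w : ℕ → R) (j q : ℕ) :
    dy b w (j + 1) q = dy b w j (2 * q) + dy b w j (2 * q + 1) := by
  unfold dy
  rw [← sum_add_distrib]
  refine sum_congr rfl fun k _ => ?_
  rw [pow_succ, ← Nat.div_div_eq_div_mul]
  generalize k / 2 ^ j = a
  split_ifs <;> first | omega | simp

theorem dy_zero {b q : ℕ} (w : ℕ → R) (h : q < 2 ^ b) : dy b w 0 q = w q := by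
  simp [dy, h]

theorem dy_top (b : ℕ) (w : ℕ → R) : dy b w b 0 = ∑ k ∈ range (2 ^ b), w k :=
  sum_congr rfl fun _ hk => if_pos (Nat.div_eq_of_lt (mem_range.1 hk))

theorem sum_head {H y : ℕ} (w : ℕ → R) (h : 3 * y + 2 < H) :
    ∑ k ∈ range H, (if k / 3 = y then w k else 0) = w (3 * y) + w (3 * y + 1) + w (3 * y + 2) := by
  rw [← sum_filter]
  have : (range H).filter (fun k => k / 3 = y) = {3 * y, 3 * y + 1, 3 * y + 2} := by
    ext k; simp only [mem_filter, mem_range, mem_insert, mem_singleton]; omega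
  rw [this, sum_insert (by simp), sum_insert (by simp), sum_singleton, add_assoc]

theorem sum_fib (H : ℕ) (φ : ℕ → ℕ) (w : ℕ → R) (S : Finset ℕ) :
    ∑ p ∈ S, ∑ k ∈ range H, (if φ k = p then w k else 0) =
      ∑ k ∈ range H, if φ k ∈ S then w k else 0 := by
  rw [sum_comm]
  exact sum_congr rfl fun k _ => sum_ite_eq _ _ _

theorem sum_heads {H : ℕ} {S : Finset ℕ} (w : ℕ → R) (h : ∀ y ∈ S, 3 * y + 2 < H) :
    ∑ y ∈ S, (w (3 * y) + w (3 * y + 1) + w (3 * y + 2)) =
      ∑ k ∈ range H, if k / 3 ∈ S then w k else 0 := by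
  rw [← sum_fib]
  exact sum_congr rfl fun y hy => (sum_head w (h y hy)).symm

end dy

theorem sub_eq (b : ℕ) (tl x : ℕ → ℕ) (p j q : ℕ) :
    sub b tl x p j q = dy b (fun k => if tl k = p then x k else 0) j q :=
  sum_congr rfl fun k _ => by beta_reduce; split_ifs <;> simp_all

theorem sub_succ (b : ℕ) (tl x : ℕ → ℕ) (p j q : ℕ) :
    sub b tl x p (j + 1) q = sub b tl x p j (2 * q) + sub b tl x p j (2 * q + 1) := by
  simp only [sub_eq, dy_succ]

theorem sub_zero {b q : ℕ} (tl x : ℕ → ℕ) (p : ℕ) (h : q < 2 ^ b) :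
    sub b tl x p 0 q = if tl q = p then x q else 0 := by rw [sub_eq, dy_zero _ h]

theorem sub_top (b : ℕ) (tl x : ℕ → ℕ) (p : ℕ) :
    sub b tl x p b 0 = ∑ k ∈ range (2 ^ b), if tl k = p then x k else 0 := by rw [sub_eq, dy_top]

/-! ### The basic identity -/

variable {b U : ℕ} {V : Vw} {s : NT} {Ps Ys : Finset ℕ}

/-- What leaves the pair of sets. -/
def expo (b : ℕ) (V : Vw) (x : ℕ → ℕ) (Ps Ys : Finset ℕ) : ℕ :=
  ∑ k ∈ range (2 ^ b), if V.tl k ∈ Ps ∧ k / 3 ∉ Ys then x k else 0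

/-- The exposure. -/
def exp (b U : ℕ) (V : Vw) (x : ℕ → ℕ) (p : ℕ) : ℕ := U + V.dt p - sub b V.tl x p b 0

theorem Vw.OK.key_lt (h : V.OK b) {k : ℕ} (hk : V.tl k ≠ 0) : k < 2 ^ b := by
  have := h.ltI _ (h.arc k hk).2
  omega

theorem Vw.Cls.split {R : Type} [AddCommMonoid R] (ok : V.OK b) (h : V.Cls Ps Ys) (w : ℕ → R)
    (h0 : ∀ k, V.tl k = 0 → w k = 0) :
    ∑ p ∈ Ps, ∑ k ∈ range (2 ^ b), (if V.tl k = p then w k else 0) =
      ∑ y ∈ Ys, (w (3 * y) + w (3 * y + 1) + w (3 * y + 2)) +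
        ∑ k ∈ range (2 ^ b), if V.tl k ∈ Ps ∧ k / 3 ∉ Ys then w k else 0 := by
  rw [sum_fib, sum_heads w fun y hy => ok.ltI y (h.sI hy), ← sum_add_distrib]
  refine sum_congr rfl fun k _ => ?_
  by_cases a : k / 3 ∈ Ys
  · by_cases a' : V.tl k = 0
    · simp [h0 k a']
    · simp [a, h.cl k a a']
  · simp [a]

/-- **The identity**: export plus exposure is surplus plus debts. -/
theorem Inv.ident (h : Inv b U V s) (c : V.Cls Ps Ys) :
    expo b V s.x.get Ps Ys + ∑ p ∈ Ps, exp b U V s.x.get p + U * Ys.card =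
      U * Ps.card + V.dts Ps Ys := by
  have e1 := c.split h.ok s.x.get h.x0
  have e2 : ∑ p ∈ Ps, (sub b V.tl s.x.get p b 0 + exp b U V s.x.get p) = ∑ p ∈ Ps, (U + V.dt p) :=
    sum_congr rfl fun p hp => by have := h.out p (c.sP hp); unfold exp; omega
  have e3 : ∑ y ∈ Ys, (s.x.get (3 * y) + s.x.get (3 * y + 1) + s.x.get (3 * y + 2) + V.dt y) =
      ∑ _y ∈ Ys, U := sum_congr rfl fun y hy => h.sat y (c.sI hy)
  simp only [← sub_top] at e1
  rw [sum_add_distrib, sum_add_distrib, sum_const, smul_eq_mul, mul_comm] at e2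
  rw [sum_add_distrib, sum_const, smul_eq_mul, mul_comm] at e3
  unfold expo Vw.dts
  omega

/-- The deficiency of a closed set is at most its debt. -/
theorem Inv.hall (h : Inv b U V s) (c : V.Cls Ps Ys) :
    U * Ys.card ≤ U * Ps.card + V.dts Ps Ys := h.ident c ▸ Nat.le_add_left _ _

theorem Inv.empty {b U : ℕ} (h0 : 0 < U) (h1 : U ≤ 2 ^ b) : Inv b U Vw.empty NT.empty where
  ok := ⟨by simp [Vw.empty], by simp [Vw.empty], by simp [Vw.empty], by simp [Vw.empty],
    by simp [Vw.empty], by simp [Vw.empty]⟩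
  upos := h0
  ule := h1
  inn := by simp [Vw.empty, NT.empty]
  tl := rfl
  dt := rfl
  x0 := fun _ _ => rfl
  sm := fun _ _ _ _ _ => by simp [NT.empty, sub]
  sat := by simp [Vw.empty]
  out := by simp [Vw.empty]

theorem Inv.dt_le (h : Inv b U V s) {y : ℕ} (hy : y ∈ V.I) : V.dt y ≤ U := by
  have := h.sat y hy; omega

theorem Inv.x_le (h : Inv b U V s) (k : ℕ) : s.x.get k ≤ U := by
  by_cases a : V.tl k = 0
  · rw [h.x0 k a]; omega
  · have := h.sat _ (h.ok.arc k a).2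
    have e : k = 3 * (k / 3) ∨ k = 3 * (k / 3) + 1 ∨ k = 3 * (k / 3) + 2 := by omega
    rcases e with e | e | e <;> rw [← e] at this <;> omega

theorem Vw.Cls.union {Ps' Ys' : Finset ℕ} (h : V.Cls Ps Ys) (h' : V.Cls Ps' Ys') :
    V.Cls (Ps ∪ Ps') (Ys ∪ Ys') :=
  ⟨union_subset h.sP h'.sP, union_subset h.sI h'.sI, fun k hk a => by
    rcases mem_union.1 hk with hk | hk
    · exact mem_union_left _ (h.cl k hk a)
    · exact mem_union_right _ (h'.cl k hk a)⟩

theorem Vw.Cls.outer (h : Ps ⊆ V.P) : V.Cls Ps ∅ := ⟨h, empty_subset _, by simp⟩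

end Vale.Agent.P305N
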