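import Vale.Agent.P305N.Apply

/-!
# The explicit fractional matching: tests, rounds of merges, and the block NET
-/

namespace Vale.Agent.P305N

open Vale.Agent.P305E Vale.Agent.P305C Vale.Agent.P305LC Finset

variable (loc : ℕ → OS → List (ℕ × ℕ) → ℕ → M Out)

/-- The local flow in the network. -/
def run (b U : ℕ) (s : NT) (src : List (ℕ × ℕ)) (ρ : ℕ) : M Out :=
  pow2 b >>= fun H => num (3 * b + 5) >>= fun b' =>
    mapM' (fun p => num (3 * p.1) >>= fun a => pure (a, p.2)) src >>= fun L =>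
      loc b' (H, b, U, s) L ρ

/-- The names in the cut. -/
def cutP (s : NT) (Z : List ℕ) : M (List ℕ × List ℕ) :=
  filterMapP (nm s false) Z >>= fun P => filterMapP (nm s true) Z >>= fun Y => pure (P, Y)

/-- The test. -/
def testP (b U : ℕ) (s : NT) (o o' ρ : ℕ) : M (Option (List ℕ × List ℕ)) :=
  run loc b U s [(o, U), (o', U)] ρ >>= fun w =>
    if w.2.2.2.1.isEmpty = true then pure none else cutP s w.2.2.2.2 >>= fun S => pure (some S)

/-- A round of a merge. -/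
def mroundP (b U : ℕ) (s : NT) (src : List (ℕ × ℕ)) :
    M ((List ℕ × List ℕ) ⊕ (NT × List (ℕ × ℕ) × List (ℕ × ℕ))) :=
  run loc b U s src 1 >>= fun w => sumP (fun p => p.2) src >>= fun a =>
    sumP (fun p => p.2) w.2.2.2.1 >>= fun a' =>
      if 2 * a' ≤ a then applyP b s src w >>= fun q => pure (.inr q)
      else cutP s w.2.2.2.2 >>= fun S => pure (.inl S)

@[fun_prop] theorem impl_cutP : Impl fun p : NT × List ℕ => cutP p.1 p.2 := by
  unfold cutP; fun_prop

variable {loc} {c : ℕ} {g : ℕ → ℕ} {B b U : ℕ} {V : Vw} {s : NT}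

theorem impl_run (L : LocOK nbP loc c g) : Impl fun p : ℕ × ℕ × NT × List (ℕ × ℕ) × ℕ =>
    run loc p.1 p.2.1 p.2.2.1 p.2.2.2.1 p.2.2.2.2 := by
  have := L.impl
  unfold run; fun_prop

theorem run_vt (L : LocOK nbP loc c g) (h : Inv b U V s) (hd : ∀ p ∈ V.P, V.dt p ≤ 2 ^ b)
    {src : List (ℕ × ℕ)} (hs : V.Am src) (ht : tot src ≤ 2 * 2 ^ b) {ρ : ℕ} (h1 : 1 ≤ ρ)
    (h2 : ρ ≤ 2 ^ b) (hB : 2 ^ (6 * (c + 1) * (b + 1)) ≤ B) :
    Vt b B (run loc b U s src ρ) fun o t => ∃ t0,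
      LocRes (nw b U V s) (lift src) ρ (g (3 * b + 5)) o t0 ∧ t ≤ t0 + 2 * src.length := by
  have b1 : 2 ^ (3 * b + 5) ≤ B := (Nat.pow_le_pow_right (by omega) (by nlinarith)).trans hB
  have b2 : 2 ^ (c * (3 * b + 5 + 1)) ≤ B := (Nat.pow_le_pow_right (by omega) (by nlinarith)).trans hB
  have h3 : 1 ≤ 2 ^ b := Nat.one_le_two_pow
  have h4 : 2 ^ b ≤ 2 ^ b * 2 ^ b := Nat.le_mul_of_pos_left _ h3
  have h5 := four_le b
  have h6 := lt_H (le_refl (3 * b + 5))
  have nd : ∀ p ∈ src, Nod b U V s (3 * p.1) := fun p hp => (hs p hp).1.elim .inn .out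
  have := length_le_tot fun p hp => (hs p hp).2
  refine Vt.tbind' ((Tri_pow2 _ _).2 ⟨by dsimp only; omega, Vt.num_bind (by omega)
    (Vt.tbind (cn := true) (Tri.mapM' (P := fun p r => r = (3 * p.1, p.2)) (T := fun _ => 0)
      fun p hp => ?_) ?_)⟩)
  · simp only [Tri_bind, Tri_num, Tri_pure]
    exact ⟨((nd p hp).lt h hd).le.trans b1, trivial, le_rfl⟩
  · rintro l t ⟨e1, e2⟩
    obtain rfl : l = lift src := eq_map_of_forall₂ e1
    refine ((L.spec B _ _ (2 ^ b, b, U, s) (lift src) ρ (range (2 ^ (3 * b + 5))) (nw_ok h hd)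
      (fun v hv => mem_range.2 (Nod.lt h hd hv)) (by simp) (fun v hv => nbP_tri h hd b1 hv)
      (fun p hp => ?_) (by simp only [lift, List.length_map]; omega) (by rw [tot_lift]; omega) h1
      (by omega) b2).anti (by omega)).mono fun o t' r => ⟨t', r, by simp at e2; omega⟩
    obtain ⟨e, he, rfl⟩ := List.mem_map.1 hp
    exact nd e he

theorem cut_tri (h : Inv b U V s) (hd : ∀ p ∈ V.P, V.dt p ≤ 2 ^ b) {src : List (ℕ × ℕ)}
    (hs : V.Am src) (ht : tot src ≤ 2 * 2 ^ b) {ρ κ t0 : ℕ} (h1 : 1 ≤ ρ) {o : Out}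
    (L : LocRes (nw b U V s) (lift src) ρ κ o t0) (hr : o.2.2.2.1 ≠ []) :
    Tri ⟨B, true⟩ (cutP s o.2.2.2.2) fun S t => ClsL V S ∧ 0 < tot o.2.2.2.1 ∧
      2 * (U * S.1.length + V.dts S.1.toFinset S.2.toFinset) + tot o.2.2.2.1 ≤
        2 * (U * S.2.length + (∑ x ∈ S.1.toFinset, ms src x + ∑ x ∈ S.2.toFinset, ms src x)) ∧
      S.1.length + S.2.length + t ≤ 4 * o.2.2.2.2.length := by
  obtain ⟨a1, a2, a3, a4, -⟩ := L.fin.resolve_left hr
  have n : ∀ c, (o.2.2.2.2.filterMap (nm s c)).Nodup := fun c => a2.filterMap fun v v' x e e' => by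
    simp only [nm, Option.mem_def] at e e'
    split_ifs at e e' with a a'
    have := Option.some.inj e
    have := Option.some.inj e'
    omega
  obtain ⟨c1, c2⟩ := fail_flow h hd L.flw hs ht (Z := o.2.2.2.2.toFinset)
    (fun v hv => a3 v (List.mem_toFinset.1 hv)) h1 a4
    (Ps := (o.2.2.2.2.filterMap (nm s false)).toFinset)
    (Ys := (o.2.2.2.2.filterMap (nm s true)).toFinset)
    (by
      ext x
      simp only [List.mem_toFinset, mem_nm, mem_filter]
      refine ⟨fun ⟨e, e'⟩ => ⟨?_, e⟩, fun ⟨e, e'⟩ => ⟨e', by simpa using h.not_inn e⟩⟩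
      have := Nod.un_of (L.flw.nd _ (a3 _ e)) (by omega)
      rw [show 3 * x / 3 = x by omega, ← h.inn, e'] at this
      simpa using this)
    (by
      ext x
      simp only [List.mem_toFinset, mem_nm, mem_filter, h.inn, and_comm])
  rw [List.toFinset_card_of_nodup (n _), List.toFinset_card_of_nodup (n _)] at c2
  have := List.length_filterMap_le (nm s true) o.2.2.2.2
  have := List.length_filterMap_le (nm s false) o.2.2.2.2
  simp only [cutP, Tri_bind, Tri_filterMapP, Tri_pure]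
  exact ⟨⟨n _, n _, c1⟩, a1, c2, by omega⟩

theorem test_vt (L : LocOK nbP loc c g) (h : Inv b U V s) (hd : ∀ p ∈ V.P, V.dt p ≤ 2 ^ b)
    {o o' ρ : ℕ} (ho : o ∈ V.P) (ho' : o' ∈ V.P) (h1 : 1 ≤ ρ) (h2 : ρ ≤ U)
    (hB : 2 ^ (6 * (c + 1) * (b + 1)) ≤ B) : Vt b B (testP loc b U s o o' ρ)
      (TestRes V U ((12 * b + 24) * (g (3 * b + 5) + 1)) ρ o o') := by
  have hs : V.Am [(o, U), (o', U)] := by simp [Vw.Am, ho, ho', h.upos]
  have ht : tot [(o, U), (o', U)] = 2 * U := by simp [tot]; omega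
  have := h.ule
  have e1 : ∀ Ps, ∑ x ∈ Ps, ms [(o, U), (o', U)] x = U * ends o o' Ps := fun Ps => by
    rw [sum_ms, ends]; simp [mul_add]
  have e2 : ∀ Ys ⊆ V.I, ∑ x ∈ Ys, ms [(o, U), (o', U)] x = 0 := fun Ys hY => by
    rw [sum_ms]
    simp [show o ∉ Ys from fun a => h.ok.dis _ (hY a) ho,
      show o' ∉ Ys from fun a => h.ok.dis _ (hY a) ho']
  refine (run_vt L h hd hs (by omega) h1 (by omega) hB).bind ?_
  rintro w t ⟨t0, r, ht0⟩
  generalize g (3 * b + 5) = κ at r ⊢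
  have tm := r.time
  have : 2 * U / ρ ≤ 2 * (U / ρ) + 1 := by
    rw [Nat.div_le_iff_le_mul_add_pred (by omega)]
    have := Nat.div_add_mod U ρ
    have := Nat.mod_lt U (show ρ > 0 by omega)
    rw [mul_add, mul_left_comm]
    omega
  rw [tot_lift, ht] at tm
  simp only [lift, List.length_map, List.length_cons, List.length_nil] at tm ht0
  have tm' := tm.trans (Nat.mul_le_mul_right κ
    (by omega : 2 * U / ρ + (0 + 1 + 1) + 1 ≤ 4 * (U / ρ + 1)))
  have big : 16 * ((U / ρ + 1) * κ) + 4 ≤ (U / ρ + 1) * ((12 * b + 24) * (κ + 1)) := by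
    generalize U / ρ = n
    nlinarith [Nat.zero_le (n * b * κ), Nat.zero_le (n * b), Nat.zero_le (b * κ),
      Nat.zero_le (n * κ)]
  rw [mul_assoc] at tm'
  refine Vt.ite (fun a => Vt.pure ⟨fun Ps Ys hc => ?_, by omega⟩) fun a => ?_
  · have F := r.flw
    rw [List.isEmpty_iff.1 a] at F
    have := succ_flow h F r.don hc
    rw [e1, e2 _ hc.sI] at this
    have : (3 * b + 4) * (κ * ρ) * (Ps.card + Ys.card) ≤
        (12 * b + 24) * (κ + 1) * ρ * (Ps.card + Ys.card) := by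
      rw [← mul_assoc]; gcongr <;> omega
    omega
  · refine Vt.tbind (cn := true) (cut_tri h hd hs (by omega) h1 r (by simpa using a)) ?_
    rintro S t' ⟨c1, c2, c3, c4⟩
    rw [e1, e2 _ c1.2.2.sI] at c3
    exact Vt.pure ⟨c1, by omega, by omega⟩

theorem mround_vt (L : LocOK nbP loc c g) (h : Inv b U V s) (hd : ∀ p ∈ V.P, V.dt p ≤ 2 ^ b)
    {src : List (ℕ × ℕ)} (hs : V.Am src) (hle : ∀ x, ms src x ≤ V.dt x) (ht : tot src ≤ 2 ^ b)
    (hB : 2 ^ (6 * (c + 1) * (b + 1)) ≤ B) : Vt b B (mroundP loc b U s src)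
      (RoundRes b U ((12 * b + 24) * (g (3 * b + 5) + 1)) V src) := by
  have b1 : 2 ^ (3 * b + 5) ≤ B := (Nat.pow_le_pow_right (by omega) (by nlinarith)).trans hB
  have b2 : 2 ^ b ≤ B := (Nat.pow_le_pow_right (by omega) (by omega)).trans b1
  refine (run_vt L h hd hs (by omega) le_rfl Nat.one_le_two_pow hB).bind ?_
  rintro w t ⟨t0, r, ht0⟩
  generalize g (3 * b + 5) = κ at r ⊢
  have tm := r.time
  have := length_le_tot fun p hp => (hs p hp).2
  have sm := r.flw.sum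
  rw [tot_lift] at sm tm
  simp only [lift, List.length_map, Nat.div_one] at tm
  have tm' := tm.trans (Nat.mul_le_mul_right κ
    (by omega : tot src + src.length + 1 ≤ 2 * (tot src + 1)))
  rw [mul_assoc] at tm'
  have big : (6 * b + 12) * (2 * ((tot src + 1) * κ)) + 4 * tot src ≤
      (tot src + 1) * ((12 * b + 24) * (κ + 1)) := by
    generalize tot src = n
    nlinarith [Nat.zero_le (n * b)]
  have tm2 := Nat.mul_le_mul_left (6 * b + 12) tm'
  refine Vt.of_tri (cn := true) ?_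
  simp only [Tri_bind, Tri_sumP]
  change tot src ≤ B ∧ tot w.2.2.2.1 ≤ B ∧ Tri _ (if 2 * tot w.2.2.2.1 ≤ tot src then _ else _) _
  refine ⟨by omega, by omega, ?_⟩
  split_ifs with a
  · refine (apply_tri h hd hs hle ht r b1).bind ?_
    rintro q t' ⟨c1, c2, c3, c4, c5, c6, c7, c8, c9⟩
    refine ⟨c1, c2, c3, c4, by omega, c6, fun x => (c7 x).trans ?_,
      fun y hy => (c8 y hy).trans (by nlinarith), by nlinarith⟩
    rw [mul_comm κ]; gcongr <;> omega
  · refine (cut_tri h hd hs (by omega) le_rfl r fun e => a (by simp [e])).bind ?_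
    rintro S t' ⟨c1, c2, c3, c4⟩
    exact ⟨c1, by omega, by nlinarith⟩

/-- **The block NET**, from local flows. -/
theorem net (h : LOC) : NET := by
  obtain ⟨loc, c, g, L⟩ := h OS nbP impl_nbP
  have hr := impl_run L
  have bd : ∀ {B b : ℕ}, 2 ^ (6 * (c + 1) * (b + 1)) ≤ B → 2 ^ b * 2 ^ b ≤ B ∧ b + 1 ≤ B :=
    fun {B b} hB => by
    have b1 : 2 ^ (3 * b + 5) ≤ B := (Nat.pow_le_pow_right (by omega) (by nlinarith)).trans hB
    have := four_le b
    have := lt_H (le_refl (3 * b + 5))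
    omega
  have lin : ∀ a : ℕ, Sub fun N => a * Nat.size N + a := fun a =>
    ((Sub.const a).mul Sub.size).add (Sub.const a)
  refine ⟨⟨rootP, pairP, addP, delP, conP, testP loc, mroundP loc⟩, 6 * (c + 1),
    fun b => (12 * b + 24) * (g (3 * b + 5) + 1), by unfold rootP; fun_prop,
    by unfold pairP; fun_prop, by unfold addP; fun_prop, by unfold delP; fun_prop,
    by unfold conP; fun_prop, by unfold testP; fun_prop, by unfold mroundP; fun_prop,
    fun a => ?_, fun x y e => ?_, fun _ _ _ _ _ => root_inv,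
    fun B b U V s k p i a1 a2 a3 a4 a5 a6 a7 a8 a9 hB => ?_, fun _ _ _ _ _ _ => add_inv,
    fun B b U V s Ps Ys K i a1 a2 hB => ?_, fun B b U V s Ps Ys r K i a1 a2 a3 a4 a5 hB => ?_,
    fun B b U V s o o' ρ i a1 a2 a3 _ a5 a6 hB => test_vt L i a1 a2 a3 a5 a6 hB,
    fun B b U V s src i a1 a2 a3 a4 hB => mround_vt L i a1 a2 a3 a4 hB⟩
  · refine ((((Sub.const 12).mul (lin a)).add (Sub.const 24)).mul
      ((L.sub (3 * a + 5)).add (Sub.const 1))).mono fun N _ => ?_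
    exact Nat.mul_le_mul_left _ (Nat.succ_le_succ (L.mono (by nlinarith)))
  · exact Nat.mul_le_mul (by omega) (Nat.succ_le_succ (L.mono (by omega)))
  · exact (pair_tri i a1 a2 a3 a4 a5 a6 a7 a8 a9 (bd hB).1 (bd hB).2).mono fun _ _ r =>
      ⟨r.1, by nlinarith [r.2]⟩
  · exact (del_tri i a1 a2 (bd hB).1 (bd hB).2).mono fun _ _ r => ⟨r.1, r.2.1, r.2.2.1, r.2.2.2.1,
      r.2.2.2.2.trans (Nat.mul_le_mul_left _ (by nlinarith))⟩
  · exact (con_tri i a1 a2 a3 a4 a5 (bd hB).1 (bd hB).2).mono fun _ _ r =>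
      ⟨r.1, r.2.trans (Nat.mul_le_mul_left _ (by nlinarith))⟩

end Vale.Agent.P305N
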