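import Vale.Agent.P305N.Flow

/-!
# The explicit fractional matching: a flow is applied
-/

namespace Vale.Agent.P305N

open Vale.Agent.P305E Vale.Agent.P305C Vale.Agent.P305LC Finset

theorem ms_fm (g : ℕ × ℕ → Option (ℕ × ℕ)) (L : List (ℕ × ℕ)) (x : ℕ) : ms (L.filterMap g) x =
    (L.map fun e => (g e).elim 0 fun p => if p.1 = x then p.2 else 0).sum := by
  induction L with
  | nil => rfl
  | cons e L ih =>
    rw [List.filterMap_cons, List.map_cons, List.sum_cons, ← ih]
    cases g e <;> simp [ms_cons]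

theorem tot_fm (g : ℕ × ℕ → Option (ℕ × ℕ)) (L : List (ℕ × ℕ)) :
    tot (L.filterMap g) = (L.map fun e => (g e).elim 0 Prod.snd).sum := by
  induction L with
  | nil => rfl
  | cons e L ih =>
    rw [List.filterMap_cons, List.map_cons, List.sum_cons, ← ih]
    cases g e <;> simp [tot_cons]

/-- The name of a remaining source. -/
def rs (e : ℕ × ℕ) : Option (ℕ × ℕ) := if e.2 = 0 then none else some (e.1 / 3, e.2)

/-- The name of a donation. -/
def dn (H : ℕ) (e : ℕ × ℕ) : Option (ℕ × ℕ) := if e.2 = 0 ∨ e.1 % 3 = 2 then none else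
  some (if e.1 % 3 = 0 then e.1 / 3 else e.1 / 3 / H / H, e.2)

/-- The new value on an arc. -/
def nx (H : ℕ) (s : NT) (f : Arr (Arr ℕ)) (k : ℕ) : ℕ := if s.tl.get k = 0 then 0 else
  s.x.get k + (f.get (3 * (k / 3))).get (tn H (s.tl.get k) 0 k) -
    (f.get (tn H (s.tl.get k) 0 k)).get (3 * (k / 3))

/-- The inner (outer) name of a node. -/
def nm (s : NT) (c : Bool) (v : ℕ) : Option ℕ :=
  if v % 3 = 0 ∧ s.inn.get (v / 3) = c then some (v / 3) else none

/-- A flow is applied. -/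
def applyP (b : ℕ) (s : NT) (src : List (ℕ × ℕ)) (o : Out) :
    M (NT × List (ℕ × ℕ) × List (ℕ × ℕ)) :=
  pow2 b >>= fun H => filterMapP (nm s true) o.2.1 >>= fun ys => keysOf ys >>= fun ks =>
    setAll b s (fun k => s.tl.get k) (nx H s o.1) ks >>= fun z => filterMapP rs o.2.2.2.1 >>=
      fun r => filterMapP (dn H) o.2.2.1 >>= fun d => addL s.dt r >>= fun d1 => addL d1 d >>=
        fun d2 => subL d2 src >>= fun d3 => pure (⟨s.inn, z.tl, d3, z.x, z.sm⟩, r, d)

@[fun_prop] theorem pure_nm : Pure fun p : NT × Bool × ℕ => nm p.1 p.2.1 p.2.2 := by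
  unfold nm; fun_prop

@[fun_prop] theorem impl_applyP :
    Impl fun p : ℕ × NT × List (ℕ × ℕ) × Out => applyP p.1 p.2.1 p.2.2.1 p.2.2.2 := by
  unfold applyP rs dn nx; fun_prop

theorem mem_nm {s : NT} {c : Bool} {l : List ℕ} {x : ℕ} :
    x ∈ l.filterMap (nm s c) ↔ 3 * x ∈ l ∧ s.inn.get x = c := by
  simp only [List.mem_filterMap, nm]
  refine ⟨fun ⟨v, h1, h2⟩ => ?_, fun ⟨h1, h2⟩ => ⟨_, h1, by simp [h2]⟩⟩
  split_ifs at h2 with a
  obtain rfl := Option.some.inj h2
  exact ⟨(by omega : v = 3 * (v / 3)) ▸ h1, a.2⟩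

variable {B b U : ℕ} {V : Vw} {s : NT} {src don r : List (ℕ × ℕ)} {f : ℕ → ℕ → ℕ} {R : List ℕ}

theorem rest_mod (F : Flw (nw b U V s) (lift src) f R don r) {e : ℕ × ℕ} (he : e ∈ r)
    (h : e.2 ≠ 0) : e.1 % 3 = 0 := by
  by_contra a
  have := rest_z F a
  have := le_ms he
  omega

theorem ms_rs (F : Flw (nw b U V s) (lift src) f R don r) (x : ℕ) :
    ms (r.filterMap rs) x = ms r (3 * x) := by
  rw [ms_fm, ms]
  refine congrArg _ (List.map_congr_left fun e he => ?_)
  unfold rs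
  by_cases a : e.2 = 0
  · simp [a]
  · have := rest_mod F he a
    simp only [a, if_false, Option.elim]
    split_ifs <;> omega

theorem tot_rs (r : List (ℕ × ℕ)) : tot (r.filterMap rs) = tot r := by
  rw [tot_fm, tot]
  refine congrArg _ (List.map_congr_left fun e _ => ?_)
  unfold rs
  split_ifs with a <;> simp [a]

theorem tot_dn (H : ℕ) (d : List (ℕ × ℕ)) : tot (d.filterMap (dn H)) ≤ tot d := by
  rw [tot_fm, tot]
  refine List.sum_le_sum fun e _ => ?_
  unfold dn
  split_ifs with a <;> simp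

theorem Nod.tr_of {v : ℕ} (h : Nod b U V s v) (e : v % 3 = 1) :
    v / 3 / 2 ^ b / 2 ^ b ∈ V.P ∧ Und (2 ^ b) (v / 3 / 2 ^ b / 2 ^ b) b 0 v := by
  cases h with
  | inn => omega
  | out => omega
  | @tr p j q a hj hq =>
    simp only [Und, tn_mod, tn_div, cd_p _ (lt_H hj) (q_lt hq), cd_q _ (lt_H hj) (q_lt hq),
      cd_mod _ _ (lt_H hj), true_and]
    exact ⟨a, hj, Nat.div_eq_of_lt hq⟩
  | ch => rw [cn_mod] at e; omega

theorem Nod.un_of {v : ℕ} (h : Nod b U V s v) (e : v % 3 = 0) : v / 3 ∈ V.I ∨ v / 3 ∈ V.P := by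
  cases h with
  | inn a => exact .inl (by simpa using a)
  | out a => exact .inr (by simpa using a)
  | tr => rw [tn_mod] at e; omega
  | ch => rw [cn_mod] at e; omega

theorem ms_dn (F : Flw (nw b U V s) (lift src) f R don r) (x : ℕ) :
    ms (don.filterMap (dn (2 ^ b))) x =
      ms don (3 * x) + if x ∈ V.P then Dt (2 ^ b) (ms don) x b 0 else 0 := by
  have : (if x ∈ V.P then Dt (2 ^ b) (ms don) x b 0 else 0) = (don.map fun e =>
      if x ∈ V.P ∧ Und (2 ^ b) x b 0 e.1 then e.2 else 0).sum := by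
    rw [Dt_ms don x b 0 le_rfl (by simp)]
    split_ifs with a <;> simp [a]
  rw [this, ms_fm, ms, ← List.sum_map_add]
  refine congrArg _ (List.map_congr_left fun e he => ?_)
  have n : Nod b U V s e.1 := F.nd _ (F.donR e he)
  unfold dn
  by_cases a : e.1 % 3 = 1
  · have := n.tr_of a
    by_cases c : e.1 / 3 / 2 ^ b / 2 ^ b = x
    · rw [c] at this
      by_cases c' : e.2 = 0 <;> simp [a, c, c', this, show e.1 ≠ 3 * x by omega]
    · have : ¬ Und (2 ^ b) x b 0 e.1 := fun u => c u.2.1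
      by_cases c' : e.2 = 0 <;> simp [a, c, c', this, show e.1 ≠ 3 * x by omega]
  · have : ¬ Und (2 ^ b) x b 0 e.1 := fun u => a u.1
    simp only [this, and_false, if_false]
    split_ifs <;> simp only [Option.elim] <;> (try split_ifs) <;> omega

theorem Dt_le (h : Inv b U V s) (F : Flw (nw b U V s) (lift src) f R don r) {κ : ℕ}
    (hκ : ∀ v, ms don v ≤ κ) {p : ℕ} (hp : p ∈ V.P) :
    Dt (2 ^ b) (ms don) p b 0 ≤ κ * (b + 1) * V.deg b p := by
  have a := dense h F hκ hp (fun _ => True) b 0 le_rfl (by simp)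
  have a' := tree h F hp b 0 le_rfl (by simp)
  simp only [dy_top, if_true, and_true] at a a'
  have e : ∑ k ∈ range (2 ^ b), (if V.tl k = p then -nk b V f k else 0) =
      -∑ k ∈ range (2 ^ b), if V.tl k = p then nk b V f k else 0 := by
    rw [← sum_neg_distrib]
    exact sum_congr rfl fun k _ => by split_ifs <;> simp
  rw [e, ← card_filter] at a
  unfold Vw.deg
  omega

theorem apply_tri {o : Out} {κ t0 : ℕ} (h : Inv b U V s) (hd : ∀ p ∈ V.P, V.dt p ≤ 2 ^ b)
    (hs : V.Am src) (hle : ∀ x, ms src x ≤ V.dt x) (ht : tot src ≤ 2 ^ b)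
    (L : LocRes (nw b U V s) (lift src) 1 κ o t0) (hB : 2 ^ (3 * b + 5) ≤ B) :
    Tri ⟨B, true⟩ (applyP b s src o) fun q t => Inv b U (V.mov src q.2.1 q.2.2) q.1 ∧
      V.Am q.2.1 ∧ V.Am q.2.2 ∧ (∀ x, ms q.2.1 x ≤ ms src x) ∧ tot q.2.1 = tot o.2.2.2.1 ∧
      tot q.2.1 + tot q.2.2 ≤ tot src ∧ (∀ x, ms q.2.2 x ≤ κ * (b + 1) * (1 + V.deg b x)) ∧
      (∀ y ∈ V.I, ms q.2.2 y ≤ κ) ∧
      t ≤ (6 * b + 11) * (o.2.1.length + o.2.2.1.length + o.2.2.2.1.length) + src.length := by
  obtain ⟨fa, R, don, r, Z⟩ := o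
  have F := L.flw
  have hκ := L.don
  dsimp only at F hκ ⊢
  simp only [mul_one] at hκ
  generalize ef : (fun u v => (fa.get u).get v) = f at F
  have h1 : 1 ≤ 2 ^ b := Nat.one_le_two_pow
  have h2 : 2 ^ b ≤ 2 ^ b * 2 ^ b := Nat.le_mul_of_pos_left _ h1
  have h3 := (four_le b).trans hB
  have h4 := lt_H (le_refl b)
  have enx : ∀ k, (nx (2 ^ b) s fa k : ℤ) = s.x.get k + nk b V f k := fun k => by
    have := nk_ge h F k
    unfold nx nk at *
    rw [h.tl]
    split_ifs at this ⊢ with a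
    · simp [h.x0 k a]
    · simp only [nf, ← ef] at this ⊢; omega
  have d0 : ∀ y ∈ V.I, ms (don.filterMap (dn (2 ^ b))) y = ms don (3 * y) := fun y hy => by
    rw [ms_dn F, if_neg (h.ok.dis y hy), add_zero]
  have sat : ∀ y ∈ V.I, nx (2 ^ b) s fa (3 * y) + nx (2 ^ b) s fa (3 * y + 1) +
      nx (2 ^ b) s fa (3 * y + 2) + (V.dt y + ms (r.filterMap rs) y +
        ms (don.filterMap (dn (2 ^ b))) y - ms src y) = U := fun y hy => by
    have := cons_inn h F hy
    have := h.sat y hy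
    have := hle y
    have := enx (3 * y); have := enx (3 * y + 1); have := enx (3 * y + 2)
    rw [d0 y hy, ms_rs F]
    omega
  have a1 : V.Am (r.filterMap rs) := fun q hq => by
    obtain ⟨e, he, e'⟩ := List.mem_filterMap.1 hq
    unfold rs at e'
    split_ifs at e' with a
    obtain rfl := Option.some.inj e'
    have m := rest_mod F he a
    have := le_ms he
    have := F.rest (3 * (e.1 / 3))
    rw [ms_lift, show 3 * (e.1 / 3) = e.1 by omega] at this
    obtain ⟨p, p1, p2, -⟩ := ms_pos (L := src) (v := e.1 / 3) (by omega)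
    exact ⟨by simpa [p2] using (hs p p1).1, Nat.pos_of_ne_zero a⟩
  have a2 : V.Am (don.filterMap (dn (2 ^ b))) := fun q hq => by
    obtain ⟨e, he, e'⟩ := List.mem_filterMap.1 hq
    have n : Nod b U V s e.1 := F.nd _ (F.donR e he)
    unfold dn at e'
    split_ifs at e' with a a' <;> obtain rfl := Option.some.inj e'
    · exact ⟨n.un_of a', by dsimp only; omega⟩
    · exact ⟨.inr (n.tr_of (by omega)).1, by dsimp only; omega⟩
  have a3 : tot (r.filterMap rs) + tot (don.filterMap (dn (2 ^ b))) ≤ tot src := by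
    have := F.sum; have := tot_dn (2 ^ b) don; rw [tot_rs]; rw [tot_lift] at *; omega
  have a4 : ∀ x, x ∈ V.I ∨ x ∈ V.P → V.dt x ≤ 2 ^ b := fun x hx =>
    hx.elim (fun a => (h.dt_le a).trans h.ule) (hd x)
  simp only [applyP, Tri_bind, Tri_pow2, Tri_filterMapP, subL, Tri_foldP, Tri_pure]
  refine ⟨by omega, (keysOf_tri fun y hy => ?_).mono ?_⟩
  · have := h.ok.ltI y ((h.inn y).1 (mem_nm.1 hy).2); omega
  rintro ks t1 ⟨k1, k2, rfl⟩
  refine (setAll_tri h.smk h.x_le' (fun k hk => ?_) (by omega) (by omega)).mono ?_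
  · have y := (h.inn _).1 (mem_nm.1 ((k1 k).1 hk)).2
    have := h.ok.ltI _ y
    have := h.ule
    have := sat _ y
    have e : k = 3 * (k / 3) ∨ k = 3 * (k / 3) + 1 ∨ k = 3 * (k / 3) + 2 := by omega
    rcases e with e | e | e <;> rw [← e] at this <;> omega
  rintro z t2 ⟨-, -, e3, e4, e5, rfl⟩
  have etl : z.tl.get = V.tl := funext fun k => by rw [e3, ite_self, h.tl]
  have ex : z.x.get = nx (2 ^ b) s fa := funext fun k => by
    rw [e4]
    split_ifs with a
    · rfl
    · have : nk b V f k = 0 := by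
        unfold nk
        split_ifs with c
        · rfl
        · have n : 3 * (k / 3) ∉ R := fun c' =>
            a ((k1 k).2 (mem_nm.2 ⟨c', (h.inn _).2 (h.ok.arc k c).2⟩))
          have n1 : ∀ v, f (3 * (k / 3)) v = 0 := fun v => by_contra fun c' => n (F.supp _ _ c').1
          have n2 : ∀ v, f v (3 * (k / 3)) = 0 := fun v => by_contra fun c' => n (F.supp _ _ c').2.1
          simp [nf, n1, n2]
      have := enx k
      omega
  refine (addL_tri fun p hp => ?_).mono ?_
  · have := a4 _ (a1 p hp).1; have := ms_le_tot (r.filterMap rs) p.1; rw [h.dt]; omega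
  rintro d1 t3 ⟨f1, rfl⟩
  refine (addL_tri fun p hp => ?_).mono ?_
  · have := a4 _ (a2 p hp).1
    have := ms_le_tot (r.filterMap rs) p.1
    have := ms_le_tot (don.filterMap (dn (2 ^ b))) p.1
    rw [f1, h.dt]; omega
  rintro d2 t4 ⟨f2, rfl⟩
  refine ⟨⟨⟨h.ok.zI, h.ok.zP, h.ok.dis, h.ok.ltI, h.ok.ltP, h.ok.arc⟩, h.upos, h.ule, h.inn, etl,
    funext fun x => by rw [subL_get, f2, f1, h.dt]; rfl, fun k hk => ?_,
    fun p j q a a' => (e5 p j q a a').trans (by rw [etl]; rfl), fun y hy => ex ▸ sat y hy,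
    fun p hp => ?_⟩, a1, a2, fun x => ?_, tot_rs r, a3, fun x => ?_,
    fun y hy => (d0 y hy).trans_le (hκ _), ?_⟩
  · simp only [ex, nx, h.tl]; exact if_pos hk
  · have c1 := tree h F hp b 0 le_rfl (by simp)
    have c2 := cons_out h F hp
    have c3 := h.out p hp
    have c4 : (sub b V.tl (nx (2 ^ b) s fa) p b 0 : ℤ) = sub b V.tl s.x.get p b 0 +
        dy b (fun k => if V.tl k = p then nk b V f k else 0) b 0 := by
      simp only [sub_top, dy_top]
      push_cast
      rw [← sum_add_distrib]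
      exact sum_congr rfl fun k _ => by split_ifs <;> simp [enx]
    have := hle p
    simp only [ex, Vw.mov, ms_rs F, ms_dn F, if_pos (show p ∈ V.P from hp)]
    unfold exp at c2
    omega
  · rw [ms_rs F, ← ms_lift src]; exact F.rest _
  · rw [ms_dn F]
    have := hκ (3 * x)
    have : κ ≤ κ * (b + 1) := Nat.le_mul_of_pos_right _ (by omega)
    rw [mul_add, mul_one]
    split_ifs with a
    · have := Dt_le h F hκ a; omega
    · omega
  · have l1 := List.length_filterMap_le (nm s true) R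
    have l2 := List.length_filterMap_le rs r
    have l3 := List.length_filterMap_le (dn (2 ^ b)) don
    rw [k2]
    nlinarith [Nat.mul_le_mul_left b l1, Nat.zero_le (b * don.length), Nat.zero_le (b * r.length)]

end Vale.Agent.P305N
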