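import Vale.Agent.P305N.Net

/-!
# The explicit fractional matching: flows and cuts of the implicit network
-/

namespace Vale.Agent.P305N

open Vale.Agent.P305E Vale.Agent.P305C Vale.Agent.P305LC Finset

/-! ### Cuts of an arbitrary network -/

/-- The capacity from `u` to the outside of `Z`. -/
def co (N : Nw) (Z : Finset ℕ) (u : ℕ) : ℕ :=
  ((N.adj u).map fun v => if v ∈ Z then 0 else N.cap u v).sum

theorem le_co {N : Nw} {Z : Finset ℕ} {u v : ℕ} (h : v ∈ N.adj u) (h' : v ∉ Z) :
    N.cap u v ≤ co N Z u := by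
  have := List.single_le_sum (l := (N.adj u).map fun v => if v ∈ Z then 0 else N.cap u v)
    (fun _ _ => Nat.zero_le _) _ (List.mem_map_of_mem h)
  rwa [if_neg h'] at this

theorem cut_cap {N : Nw} {b : ℕ} (ok : N.OK b) {src don r : List (ℕ × ℕ)} {f : ℕ → ℕ → ℕ}
    {R : List ℕ} (F : Flw N src f R don r) {Z : Finset ℕ} (hZ : ∀ v ∈ Z, N.nd v) {ρ : ℕ}
    (h : 2 * N.val f ρ r Z ≤ tot r) :
    2 * (∑ u ∈ Z, co N Z u + ρ * Z.card) + tot r ≤ 2 * ∑ u ∈ Z, ms src u := by
  classical
  have e0 : ∀ (w : ℕ → ℕ → ℕ), ∑ u ∈ Z, ((N.adj u).map fun v => if v ∈ Z then w u v else 0).sum =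
      ∑ u ∈ Z, ∑ v ∈ Z, if v ∈ N.adj u then w u v else 0 := fun w => sum_congr rfl fun u hu => by
    rw [← List.sum_toFinset _ (ok.nodup u (hZ u hu)).1, ← sum_filter, ← sum_filter]
    congr 1
    ext v
    simp [and_comm]
  have e1 : ∑ u ∈ Z, ((N.adj u).map fun v => if v ∈ Z then f v u else 0).sum =
      ∑ u ∈ Z, ((N.adj u).map fun v => if v ∈ Z then f u v else 0).sum := by
    rw [e0 fun u v => f v u, e0 f, sum_comm]
    refine sum_congr rfl fun u hu => sum_congr rfl fun v hv => ?_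
    simp only [show u ∈ N.adj v ↔ v ∈ N.adj u from
      ⟨fun a => (ok.cl v (hZ v hv) u a).2.1, fun a => (ok.cl u (hZ u hu) v a).2.1⟩]
  have e2 : ∀ u, ms src u + ((N.adj u).map fun v => if v ∈ Z then 0 else N.res f u v).sum +
      ((N.adj u).map fun v => if v ∈ Z then f v u else 0).sum = ms r u + ms don u + co N Z u +
      ((N.adj u).map fun v => if v ∈ Z then f u v else 0).sum := fun u => by
    have a := F.cons u
    have a' : ((N.adj u).map fun v => if v ∈ Z then 0 else N.res f u v).sum +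
        ((N.adj u).map fun v => if v ∈ Z then f v u else 0).sum + ((N.adj u).map fun w => f u w).sum
        = co N Z u + ((N.adj u).map fun v => if v ∈ Z then f u v else 0).sum +
          ((N.adj u).map fun w => f w u).sum := by
      unfold co
      generalize N.adj u = l
      induction l with
      | nil => rfl
      | cons v l ih =>
        have := F.cap u v
        simp only [List.map_cons, List.sum_cons, Nw.res] at ih ⊢
        split_ifs <;> omega
    omega
  have e3 := sum_congr (s₁ := Z) rfl fun u _ => e2 u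
  simp only [sum_add_distrib] at e3
  have e4 := sum_ms_add r Z
  unfold Nw.val at h
  omega

/-! ### Sums over tries -/

/-- The sum of `m` over the nodes below `(j, q)` in the trie of `p`. -/
def Dt (H : ℕ) (m : ℕ → ℕ) (p : ℕ) : ℕ → ℕ → ℕ
  | 0, q => m (tn H p 0 q)
  | j + 1, q => m (tn H p (j + 1) q) + Dt H m p j (2 * q) + Dt H m p j (2 * q + 1)

/-- The name `v` is below `(j, q)` in the trie of `p`. -/
def Und (H p j q v : ℕ) : Prop :=
  v % 3 = 1 ∧ v / 3 / H / H = p ∧ v / 3 % H ≤ j ∧ v / 3 / H % H / 2 ^ (j - v / 3 % H) = q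

instance (H p j q v : ℕ) : Decidable (Und H p j q v) := by unfold Und; infer_instance

theorem eq_tn {b p j q v : ℕ} (hj : j ≤ b) (hq : q < 2 ^ b) : v = tn (2 ^ b) p j q ↔
    v % 3 = 1 ∧ v / 3 / 2 ^ b / 2 ^ b = p ∧ v / 3 % 2 ^ b = j ∧ v / 3 / 2 ^ b % 2 ^ b = q := by
  refine ⟨?_, fun ⟨h1, h2, h3, h4⟩ => ?_⟩
  · rintro rfl
    rw [tn_mod, tn_div, cd_p _ (lt_H hj) hq, cd_q _ (lt_H hj) hq, cd_mod _ _ (lt_H hj)]
    simp
  · unfold tn cd
    rw [← h2, ← h3, ← h4, Nat.div_add_mod', Nat.div_add_mod']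
    omega

theorem Dt_ms {b : ℕ} (L : List (ℕ × ℕ)) (p : ℕ) : ∀ j q, j ≤ b → q < 2 ^ (b - j) →
    Dt (2 ^ b) (ms L) p j q = (L.map fun e => if Und (2 ^ b) p j q e.1 then e.2 else 0).sum
  | 0, q, hj, hq => by
    rw [Dt, ms]
    refine congrArg _ (List.map_congr_left fun e _ => ?_)
    simp only [eq_tn hj (q_lt hq), Und, Nat.le_zero, Nat.zero_sub, pow_zero, Nat.div_one]
  | j + 1, q, hj, hq => by
    have c := child_lt hj hq
    rw [Dt, Dt_ms L p j _ (by omega) (by omega), Dt_ms L p j _ (by omega) c, ms,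
      ← List.sum_map_add, ← List.sum_map_add]
    refine congrArg _ (List.map_congr_left fun e _ => ?_)
    have key : ∀ j' q', ((j' ≤ j + 1 ∧ q' / 2 ^ (j + 1 - j') = q) ↔ (j' = j + 1 ∧ q' = q) ∨
        (j' ≤ j ∧ q' / 2 ^ (j - j') = 2 * q) ∨ (j' ≤ j ∧ q' / 2 ^ (j - j') = 2 * q + 1)) :=
      fun j' q' => by
      by_cases a : j' ≤ j
      · rw [show j + 1 - j' = j - j' + 1 by omega, pow_succ, ← Nat.div_div_eq_div_mul]
        generalize q' / 2 ^ (j - j') = z
        omega
      · by_cases a' : j' = j + 1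
        · simp [a']
        · omega
    have k := key (e.1 / 3 % 2 ^ b) (e.1 / 3 / 2 ^ b % 2 ^ b)
    have k' := eq_tn (p := p) (v := e.1) hj (q_lt hq)
    split_ifs with a1 a2 a3 a4 a4 a3 a4 a4 a2 a3 a4 a4 a3 a4 a4 <;> simp only [Und, k, k'] at * <;>
      omega

theorem sum_inj {ι : Type} [DecidableEq ι] (L : List (ℕ × ℕ)) (A : Finset ι) (φ : ι → ℕ) (c : ℕ)
    (h : Set.InjOn φ A) (h' : ∀ a ∈ A, φ a % 3 = c) :
    ∑ a ∈ A, ms L (φ a) ≤ (L.map fun e => if e.1 % 3 = c then e.2 else 0).sum := by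
  rw [← sum_image (f := ms L) h, sum_ms]
  refine List.sum_le_sum fun e _ => ?_
  split_ifs with a a'
  · rfl
  · obtain ⟨x, hx, e'⟩ := mem_image.1 a
    exact absurd (e' ▸ h' x hx) a'
  · exact Nat.zero_le _
  · rfl

theorem sum_Dt {b : ℕ} (L : List (ℕ × ℕ)) (S : Finset ℕ) : ∑ p ∈ S, Dt (2 ^ b) (ms L) p b 0 ≤
    (L.map fun e => if e.1 % 3 = 1 then e.2 else 0).sum := by
  simp only [Dt_ms L _ b 0 le_rfl (by simp)]
  induction L with
  | nil => simp
  | cons e L ih =>
    simp only [List.map_cons, List.sum_cons, sum_add_distrib]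
    refine add_le_add ((sum_le_sum (g := fun p => if e.1 / 3 / 2 ^ b / 2 ^ b = p then
      (if e.1 % 3 = 1 then e.2 else 0) else 0) fun p _ => ?_).trans ?_) ih
    · by_cases a : Und (2 ^ b) p b 0 e.1
      · rw [if_pos a, if_pos a.2.1, if_pos a.1]
      · rw [if_neg a]; exact Nat.zero_le _
    · rw [sum_ite_eq]; split_ifs <;> omega

theorem tot_split (L : List (ℕ × ℕ)) : (L.map fun e => if e.1 % 3 = 0 then e.2 else 0).sum +
    (L.map fun e => if e.1 % 3 = 1 then e.2 else 0).sum +
    (L.map fun e => if e.1 % 3 = 2 then e.2 else 0).sum = tot L := by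
  induction L with
  | nil => rfl
  | cons e L ih => simp only [List.map_cons, List.sum_cons, tot_cons]; split_ifs <;> omega

/-! ### A small cut gives a closed set -/

variable {b U : ℕ} {V : Vw} {s : NT}

theorem cut_cls (h : Inv b U V s) {Z : Finset ℕ} (hZ : ∀ u ∈ Z, co (nw b U V s) Z u < 4 * 2 ^ b) :
    V.Cls (V.P.filter fun p => 3 * p ∈ Z) (V.I.filter fun y => 3 * y ∈ Z) := by
  refine ⟨filter_subset _ _, filter_subset _ _, fun k hk c => ?_⟩
  obtain ⟨hy, hz⟩ := mem_filter.1 hk
  have hp := (h.ok.arc k c).1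
  have hk := h.ok.key_lt c
  have step : ∀ j, j ≤ b → tn (2 ^ b) (V.tl k) j (k / 2 ^ j) ∈ Z →
      up b (V.tl k) j (k / 2 ^ j) ∈ Z := fun j hj a => by
    by_contra a'
    have := le_co (N := nw b U V s) (u := tn (2 ^ b) (V.tl k) j (k / 2 ^ j)) (by
      have hq : k / 2 ^ j < 2 ^ b := (Nat.div_le_self _ _).trans_lt hk
      cases j with
      | zero => rw [adj_leaf h _ hq]; simp
      | succ j => simp [adj_mid _ hj hq]) a'
    rw [cap_up h hp hj] at this
    have := hZ _ a
    omega
  have all : ∀ j, j ≤ b → tn (2 ^ b) (V.tl k) j (k / 2 ^ j) ∈ Z := fun j => by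
    induction j with
    | zero =>
      intro _
      by_contra a'
      have := le_co (N := nw b U V s) (u := 3 * (k / 3)) (by
        rw [adj_inn h hy]
        have e : k = 3 * (k / 3) ∨ k = 3 * (k / 3) + 1 ∨ k = 3 * (k / 3) + 2 := by omega
        rcases e with e | e | e <;> rw [← e] <;> simp [mem_oc, c]) a'
      rw [cap_inn h hy] at this
      have := hZ _ hz
      omega
    | succ j ih =>
      intro hj
      have := step j (by omega) (ih (by omega))
      rwa [up, if_neg (by omega), Nat.div_div_eq_div_mul, ← pow_succ] at this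
  have := step b le_rfl (all b le_rfl)
  rw [up, if_pos rfl] at this
  exact mem_filter.2 ⟨hp, this⟩

theorem dy_le {R : Type} [AddCommMonoid R] [PartialOrder R] [IsOrderedAddMonoid R] {w w' : ℕ → R}
    (h : ∀ k, w k ≤ w' k) (b j q : ℕ) : dy b w j q ≤ dy b w' j q :=
  sum_le_sum fun k _ => by split_ifs; exacts [h k, le_rfl]

theorem cut_val (h : Inv b U V s) (hd : ∀ p ∈ V.P, V.dt p ≤ 2 ^ b) (Z : Finset ℕ) :
    expo b V s.x.get (V.P.filter fun p => 3 * p ∈ Z) (V.I.filter fun y => 3 * y ∈ Z) +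
      ∑ p ∈ V.P.filter fun p => 3 * p ∈ Z, exp b U V s.x.get p ≤
      ∑ u ∈ Z, co (nw b U V s) Z u + Z.card := by
  obtain ⟨L, hL⟩ : ∃ L, L = Z.toList.map fun u => (u, co (nw b U V s) Z u + 1) := ⟨_, rfl⟩
  have m : ∀ u ∈ Z, co (nw b U V s) Z u + 1 ≤ ms L u := fun u hu =>
    le_ms (p := (u, _)) (hL ▸ List.mem_map_of_mem (mem_toList.2 hu))
  have tL : tot L = ∑ u ∈ Z, co (nw b U V s) Z u + Z.card := by
    rw [hL, tot, List.map_map, ← List.sum_toFinset _ Z.nodup_toList, toList_toFinset]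
    simp [sum_add_distrib]
  obtain ⟨Ys, hY⟩ : ∃ Ys, Ys = V.I.filter fun y => 3 * y ∈ Z := ⟨_, rfl⟩
  obtain ⟨w, hw⟩ : ∃ w : ℕ → ℕ → ℕ, w = fun p k =>
    if V.tl k = p ∧ k / 3 ∉ Ys then s.x.get k else 0 := ⟨_, rfl⟩
  have wle : ∀ p j q, dy b (w p) j q ≤ sub b V.tl s.x.get p j q := fun p j q => by
    rw [sub_eq, hw]
    exact dy_le (fun k => by beta_reduce; split_ifs <;> first | omega | tauto) _ _ _
  have tr : ∀ p ∈ V.P, ∀ j q, j ≤ b → q < 2 ^ (b - j) → dy b (w p) j q ≤
      (if tn (2 ^ b) p j q ∈ Z then 0 else sub b V.tl s.x.get p j q) +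
        Dt (2 ^ b) (ms L) p j q := by
    intro p hp j
    induction j with
    | zero =>
      intro q hj hq
      split_ifs with a
      · rw [dy_zero _ (q_lt hq), Dt, hw]
        beta_reduce
        split_ifs with c
        · have y := (h.ok.arc q fun e => h.ok.zP ((c.1.symm.trans e) ▸ hp)).2
          have := le_co (N := nw b U V s) (u := tn (2 ^ b) p 0 q) (v := 3 * (q / 3))
            (by simp [adj_leaf h _ (q_lt hq), mem_oc, c.1])
            fun a => c.2 (hY ▸ mem_filter.2 ⟨y, a⟩)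
          rw [cap_leaf h y p (q_lt hq)] at this
          have := m _ a
          omega
        · exact Nat.zero_le _
      · exact (wle _ _ _).trans (Nat.le_add_right _ _)
    | succ j ih =>
      intro q hj hq
      split_ifs with a
      · have c1 := child_lt hj hq
        have c0 : 2 * q < 2 ^ (b - j) := by omega
        have i0 := ih _ (by omega) c0
        have i1 := ih _ (by omega) c1
        have := m _ a
        rw [co.eq_1 _ _ (tn _ p (j + 1) q), adj_mid p hj (q_lt hq)] at this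
        simp only [List.map_cons, List.sum_cons, List.map_nil, List.sum_nil] at this
        have d0 := cap_down h hp (by omega) c0
        have d1 := cap_down h hp (by omega) c1
        rw [up_even p q hj] at d0
        rw [up_odd p q hj] at d1
        rw [d0, d1] at this
        rw [dy_succ, Dt]
        omega
      · exact (wle _ _ _).trans (Nat.le_add_right _ _)
  have one : ∀ p ∈ V.P.filter fun p => 3 * p ∈ Z, dy b (w p) b 0 + exp b U V s.x.get p ≤
      ms L (3 * p) + Dt (2 ^ b) (ms L) p b 0 + ∑ i ∈ range (2 * 2 ^ b), ms L (cn (2 ^ b) p i) := by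
    intro p hp
    obtain ⟨hp, hz⟩ := mem_filter.1 hp
    have t := tr p hp b 0 le_rfl (by simp)
    have e := m _ hz
    rw [co, adj_out h hp] at e
    simp only [List.map_cons, List.sum_cons, sum_oc, List.map_nil, List.sum_nil, cap_top h hp,
      cap_ch0] at e
    have le := exs_le h hd hp
    rw [← h.exs_eq]
    have ch : ∀ n i, i + n = exs (2 ^ b) b U s p → 0 < n → cn (2 ^ b) p i ∈ Z →
        n ≤ ∑ i' ∈ Ico i (2 * 2 ^ b), ms L (cn (2 ^ b) p i') := by
      intro n
      induction n with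
      | zero => omega
      | succ n ih =>
        intro i e _ a
        rw [sum_eq_sum_Ico_succ_bot (by omega)]
        have := m _ a
        by_cases c : 0 < n
        · by_cases c' : cn (2 ^ b) p (i + 1) ∈ Z
          · have := ih (i + 1) (by omega) c c'
            omega
          · have := le_co (N := nw b U V s) (u := cn (2 ^ b) p i)
              (by simp [adj_ch p (by omega : i < 2 * 2 ^ b), mem_oc]; omega) c'
            rw [cap_ch p (by omega)] at this
            omega
        · omega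
    have c := ch _ 0 (Nat.zero_add _)
    rw [← range_eq_Ico] at c
    split_ifs at e t with c1 c2 c3 c2 c3 <;> first | omega | (have := c c2 c3; omega)
  have s0 := sum_le_sum one
  have s1 := sum_inj L (V.P.filter fun p => 3 * p ∈ Z) (fun p => 3 * p) 0
    (fun _ _ _ _ e => by simpa using e) fun _ _ => by omega
  have s2 := sum_Dt (b := b) L (V.P.filter fun p => 3 * p ∈ Z)
  have s3 := sum_inj L ((V.P.filter fun p => 3 * p ∈ Z) ×ˢ range (2 * 2 ^ b))
    (fun a => cn (2 ^ b) a.1 a.2) 2 (fun a ha a' ha' e => by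
      have h1 := mem_range.1 (mem_product.1 ha).2
      have h2 := mem_range.1 (mem_product.1 ha').2
      have e' : a.1 * (2 * 2 ^ b) + a.2 = a'.1 * (2 * 2 ^ b) + a'.2 := by
        rw [← cn_div, ← cn_div]; exact congrArg (· / 3) e
      exact Prod.ext (by rw [← cn_p a.1 h1, e', cn_p _ h2]) (by rw [← cn_i a.1 h1, e', cn_i _ h2]))
    fun _ _ => cn_mod _ _ _
  rw [sum_product] at s3
  dsimp only at s3
  have s4 := tot_split L
  have s5 : ∑ p ∈ V.P.filter fun p => 3 * p ∈ Z, dy b (w p) b 0 =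
      expo b V s.x.get (V.P.filter fun p => 3 * p ∈ Z) Ys := by
    simp only [dy_top, hw, ite_and]
    rw [sum_fib (2 ^ b) V.tl fun k => if k / 3 ∉ Ys then s.x.get k else 0, expo]
    simp only [ite_and]
  simp only [sum_add_distrib] at s0
  rw [← hY]
  omega

end Vale.Agent.P305N
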