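import Vale.Agent.P305LC.Defs

/-!
# The explicit fractional matching with debts: definitions and statements
-/

namespace Vale.Agent.P305N

open Vale.Agent.P305E Vale.Agent.P305C Vale.Agent.P305LC Finset

/-- The view: live inner names, live outer names, tails of the arcs (the arc with the key `k` has
the head `k / 3`; the tail `0` means that there is no arc), debts. -/
structure Vw where
  I : Finset ℕ
  P : Finset ℕ
  tl : ℕ → ℕ
  dt : ℕ → ℕ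

namespace Vw

/-- Well formed views. -/
structure OK (V : Vw) (b : ℕ) : Prop where
  zI : 0 ∉ V.I
  zP : 0 ∉ V.P
  dis : ∀ x ∈ V.I, x ∉ V.P
  ltI : ∀ x ∈ V.I, 3 * x + 2 < 2 ^ b
  ltP : ∀ x ∈ V.P, 3 * x + 2 < 2 ^ b
  arc : ∀ k, V.tl k ≠ 0 → V.tl k ∈ V.P ∧ k / 3 ∈ V.I

/-- Closed sets. -/
structure Cls (V : Vw) (Ps Ys : Finset ℕ) : Prop where
  sP : Ps ⊆ V.P
  sI : Ys ⊆ V.I
  cl : ∀ k, k / 3 ∈ Ys → V.tl k ≠ 0 → V.tl k ∈ Ps

/-- The number of arcs with the tail `p`. -/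
def deg (V : Vw) (b p : ℕ) : ℕ := ((range (2 ^ b)).filter fun k => V.tl k = p).card

/-- The debts of a pair of sets. -/
def dts (V : Vw) (Ps Ys : Finset ℕ) : ℕ := ∑ x ∈ Ps, V.dt x + ∑ x ∈ Ys, V.dt x

/-- A new outer name without arcs. -/
def root (V : Vw) (p : ℕ) : Vw := ⟨V.I, insert p V.P, V.tl, Function.update V.dt p 0⟩

/-- A new inner name `k / 3`, a new outer name `p` and the arc `k` between them. -/
def pair (V : Vw) (k p : ℕ) : Vw :=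
  ⟨insert (k / 3) V.I, insert p V.P, Function.update V.tl k p,
    Function.update (Function.update V.dt p 0) (k / 3) 0⟩

/-- A new arc. -/
def add (V : Vw) (k p : ℕ) : Vw := ⟨V.I, V.P, Function.update V.tl k p, V.dt⟩

/-- A closed set is removed; `L` are the new lacks. -/
def del (V : Vw) (Ps Ys : Finset ℕ) (L : List (ℕ × ℕ)) : Vw :=
  ⟨V.I \ Ys, V.P \ Ps, fun k => if V.tl k ∈ Ps then 0 else V.tl k, fun x => V.dt x + ms L x⟩

/-- A closed set is contracted to `r`. -/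
def con (V : Vw) (Ps Ys : Finset ℕ) (r : ℕ) : Vw :=
  ⟨V.I \ Ys, insert r (V.P \ Ps),
    fun k => if k / 3 ∈ Ys then 0 else if V.tl k ∈ Ps then r else V.tl k,
    Function.update V.dt r (V.dts Ps Ys)⟩

/-- The debts `src` are replaced by `rest` and `don`. -/
def mov (V : Vw) (src rest don : List (ℕ × ℕ)) : Vw :=
  ⟨V.I, V.P, V.tl, fun x => V.dt x + ms rest x + ms don x - ms src x⟩

/-- `K` lists the arcs from `Ps` to inner names outside of `Ys`. -/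
def Keys (V : Vw) (Ps Ys : Finset ℕ) (K : List ℕ) : Prop :=
  K.Nodup ∧ ∀ k, k ∈ K ↔ V.tl k ∈ Ps ∧ k / 3 ∉ Ys

/-- A list of positive amounts at live names. -/
def Am (V : Vw) (L : List (ℕ × ℕ)) : Prop := ∀ p ∈ L, (p.1 ∈ V.I ∨ p.1 ∈ V.P) ∧ 0 < p.2

end Vw

/-- The state: inner flags, tails, debts, values on the arcs, sums in the tries. -/
structure NT where
  inn : Arr Bool
  tl : Arr ℕ
  dt : Arr ℕ
  x : Arr ℕ
  sm : Arr ℕ

/-- Encoding. -/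
def NT.enc (s : NT) := (s.inn, s.tl, s.dt, s.x, s.sm)
instance : Rep NT := Rep.comap NT.enc
@[fun_prop] theorem NT.pinn : Pure NT.inn :=
  Pure.of_comap NT.enc (h := fun p => p.1) (by fun_prop)
@[fun_prop] theorem NT.ptl : Pure NT.tl :=
  Pure.of_comap NT.enc (h := fun p => p.2.1) (by fun_prop)
@[fun_prop] theorem NT.pdt : Pure NT.dt :=
  Pure.of_comap NT.enc (h := fun p => p.2.2.1) (by fun_prop)
@[fun_prop] theorem NT.px : Pure NT.x :=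
  Pure.of_comap NT.enc (h := fun p => p.2.2.2.1) (by fun_prop)
@[fun_prop] theorem NT.psm : Pure NT.sm :=
  Pure.of_comap NT.enc (h := fun p => p.2.2.2.2) (by fun_prop)
@[fun_prop] theorem NT.pmk {α : Type} [Rep α] {a : α → Arr Bool} {b c d e : α → Arr ℕ}
    (ha : Pure a) (hb : Pure b) (hc : Pure c) (hd : Pure d) (he : Pure e) :
    Pure fun z => NT.mk (a z) (b z) (c z) (d z) (e z) :=
  Pure.to_comap NT.enc (by unfold NT.enc; fun_prop)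

/-- The address of the node `(j, q)` in the trie of `p`. -/
def cd (H p q j : ℕ) : ℕ := (p * H + q) * H + j

/-- The sum of the values on the arcs with the tail `p` and keys `k` with `k / 2 ^ j = q`. -/
def sub (b : ℕ) (tl x : ℕ → ℕ) (p j q : ℕ) : ℕ :=
  ∑ k ∈ range (2 ^ b), if tl k = p ∧ k / 2 ^ j = q then x k else 0

/-- The invariant. -/
structure Inv (b U : ℕ) (V : Vw) (s : NT) : Prop where
  ok : V.OK b
  upos : 0 < U
  ule : U ≤ 2 ^ b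
  inn : ∀ y, s.inn.get y = true ↔ y ∈ V.I
  tl : s.tl.get = V.tl
  dt : s.dt.get = V.dt
  x0 : ∀ k, V.tl k = 0 → s.x.get k = 0
  sm : ∀ p j q, j ≤ b → q < 2 ^ b → s.sm.get (cd (2 ^ b) p q j) = sub b V.tl s.x.get p j q
  sat : ∀ y ∈ V.I, s.x.get (3 * y) + s.x.get (3 * y + 1) + s.x.get (3 * y + 2) + V.dt y = U
  out : ∀ p ∈ V.P, sub b V.tl s.x.get p b 0 ≤ U + V.dt p

/-- The programs. -/
structure Ops where
  root : NT → ℕ → NT
  pair : ℕ → ℕ → NT → ℕ → ℕ → M NT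
  add : NT → ℕ → ℕ → NT
  del : ℕ → NT → List ℕ → List ℕ → List ℕ → M (NT × List (ℕ × ℕ))
  con : ℕ → NT → List ℕ → List ℕ → ℕ → List ℕ → M NT
  test : ℕ → ℕ → NT → ℕ → ℕ → ℕ → M (Option (List ℕ × List ℕ))
  mround : ℕ → ℕ → NT → List (ℕ × ℕ) →
    M ((List ℕ × List ℕ) ⊕ (NT × List (ℕ × ℕ) × List (ℕ × ℕ)))

/-- The empty view. -/
def Vw.empty : Vw := ⟨∅, ∅, fun _ => 0, fun _ => 0⟩

/-- The empty state. -/
def NT.empty : NT := ⟨Arr.const false, Arr.const 0, Arr.const 0, Arr.const 0, Arr.const 0⟩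

/-- The number of elements of `{o, o'}` in `T`. -/
def ends (o o' : ℕ) (T : Finset ℕ) : ℕ := (if o ∈ T then 1 else 0) + if o' ∈ T then 1 else 0

/-- A successful test. -/
def Succ (V : Vw) (U κ o o' : ℕ) : Prop :=
  ∀ Ps Ys, V.Cls Ps Ys → U * ends o o' Ps + U * Ys.card ≤
    κ * (Ps.card + Ys.card) + U * Ps.card + V.dts Ps Ys

/-- A closed set given by lists. -/
def ClsL (V : Vw) (S : List ℕ × List ℕ) : Prop :=
  S.1.Nodup ∧ S.2.Nodup ∧ V.Cls S.1.toFinset S.2.toFinset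

/-- The result of a test. -/
def TestRes (V : Vw) (U κ ρ o o' : ℕ) (r : Option (List ℕ × List ℕ)) (t : ℕ) : Prop :=
  r.elim (Succ V U (κ * ρ) o o' ∧ t ≤ (U / ρ + 1) * κ) fun S => ClsL V S ∧
    U * S.1.length + V.dts S.1.toFinset S.2.toFinset <
      U * S.2.length + U * ends o o' S.1.toFinset ∧
    S.1.length + S.2.length + t ≤ (U / ρ + 1) * κ

/-- The result of a round of a merge. -/
def RoundRes (b U κ : ℕ) (V : Vw) (src : List (ℕ × ℕ))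
    (r : (List ℕ × List ℕ) ⊕ (NT × List (ℕ × ℕ) × List (ℕ × ℕ))) (t : ℕ) : Prop :=
  r.elim (fun S => ClsL V S ∧
      4 * (U * S.1.length + V.dts S.1.toFinset S.2.toFinset) + tot src ≤ 4 * (U * S.2.length +
        (∑ x ∈ S.1.toFinset, ms src x + ∑ x ∈ S.2.toFinset, ms src x)) ∧
      S.1.length + S.2.length + t ≤ (tot src + 1) * κ)
    fun q => Inv b U (V.mov src q.2.1 q.2.2) q.1 ∧ V.Am q.2.1 ∧ V.Am q.2.2 ∧
      (∀ x, ms q.2.1 x ≤ ms src x) ∧ 2 * tot q.2.1 ≤ tot src ∧ tot q.2.1 + tot q.2.2 ≤ tot src ∧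
      (∀ x, ms q.2.2 x ≤ κ * (1 + V.deg b x)) ∧ (∀ y ∈ V.I, ms q.2.2 y ≤ κ) ∧
      t ≤ (tot src + 1) * κ

/-- The specification. -/
structure NetOK (X : Ops) (c : ℕ) (g : ℕ → ℕ) : Prop where
  iroot : Pure fun p : NT × ℕ => X.root p.1 p.2
  ipair : Impl fun p : ℕ × ℕ × NT × ℕ × ℕ => X.pair p.1 p.2.1 p.2.2.1 p.2.2.2.1 p.2.2.2.2
  iadd : Pure fun p : NT × ℕ × ℕ => X.add p.1 p.2.1 p.2.2
  idel : Impl fun p : ℕ × NT × List ℕ × List ℕ × List ℕ =>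
    X.del p.1 p.2.1 p.2.2.1 p.2.2.2.1 p.2.2.2.2
  icon : Impl fun p : ℕ × NT × List ℕ × List ℕ × ℕ × List ℕ =>
    X.con p.1 p.2.1 p.2.2.1 p.2.2.2.1 p.2.2.2.2.1 p.2.2.2.2.2
  itest : Impl fun p : ℕ × ℕ × NT × ℕ × ℕ × ℕ =>
    X.test p.1 p.2.1 p.2.2.1 p.2.2.2.1 p.2.2.2.2.1 p.2.2.2.2.2
  imround : Impl fun p : ℕ × ℕ × NT × List (ℕ × ℕ) => X.mround p.1 p.2.1 p.2.2.1 p.2.2.2
  sub : ∀ a, Sub fun N => g (a * Nat.size N + a)
  mono : Monotone g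
  root : ∀ b U V s p, Inv b U V s → p ≠ 0 → 3 * p + 2 < 2 ^ b → p ∉ V.I → p ∉ V.P →
    Inv b U (V.root p) (X.root s p)
  pair : ∀ B b U V s k p, Inv b U V s → p ≠ 0 → 3 * p + 2 < 2 ^ b → p ∉ V.I → p ∉ V.P →
    k / 3 ≠ 0 → 3 * (k / 3) + 2 < 2 ^ b → k / 3 ∉ V.I → k / 3 ∉ V.P → p ≠ k / 3 →
    2 ^ (c * (b + 1)) ≤ B →
    Tri ⟨B, true⟩ (X.pair b U s k p) fun s' t => Inv b U (V.pair k p) s' ∧ t ≤ g b
  add : ∀ b U V s k p, Inv b U V s → V.tl k = 0 → k / 3 ∈ V.I → p ∈ V.P →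
    Inv b U (V.add k p) (X.add s k p)
  del : ∀ B b U V s Ps Ys K, Inv b U V s → ClsL V (Ps, Ys) → V.Keys Ps.toFinset Ys.toFinset K →
    2 ^ (c * (b + 1)) ≤ B → Tri ⟨B, true⟩ (X.del b s Ps Ys K) fun r t =>
      Inv b U (V.del Ps.toFinset Ys.toFinset r.2) r.1 ∧
      (∀ q ∈ r.2, q.1 ∈ V.I ∧ q.1 ∉ Ys ∧ 0 < q.2) ∧ r.2.length ≤ K.length ∧
      tot r.2 + U * Ys.length ≤ U * Ps.length + V.dts Ps.toFinset Ys.toFinset ∧
      t ≤ (Ys.length + K.length + 1) * g b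
  con : ∀ B b U V s Ps Ys r K, Inv b U V s → ClsL V (Ps, Ys) → r ∈ Ps →
    Ps.length = Ys.length + 1 → V.Keys (Ps.toFinset.erase r) Ys.toFinset K →
    V.dts Ps.toFinset Ys.toFinset ≤ 2 ^ b → 2 ^ (c * (b + 1)) ≤ B →
    Tri ⟨B, true⟩ (X.con b s Ps Ys r K) fun s' t =>
      Inv b U (V.con Ps.toFinset Ys.toFinset r) s' ∧ t ≤ (Ps.length + K.length + 1) * g b
  test : ∀ B b U V s o o' ρ, Inv b U V s → (∀ p ∈ V.P, V.dt p ≤ 2 ^ b) → o ∈ V.P → o' ∈ V.P →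
    o ≠ o' → 1 ≤ ρ → ρ ≤ U → 2 ^ (c * (b + 1)) ≤ B →
    Vt b B (X.test b U s o o' ρ) (TestRes V U (g b) ρ o o')
  mround : ∀ B b U V s src, Inv b U V s → (∀ p ∈ V.P, V.dt p ≤ 2 ^ b) → V.Am src →
    (∀ x, ms src x ≤ V.dt x) → tot src ≤ 2 ^ b → 2 ^ (c * (b + 1)) ≤ B →
    Vt b B (X.mround b U s src) (RoundRes b U (g b) V src)

/-- **The block NET.** -/
def NET : Prop := ∃ X c g, NetOK X c g

end Vale.Agent.P305N
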