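import Vale.Agent.P305N.Cut

/-!
# The explicit fractional matching: flows in the implicit network
-/

namespace Vale.Agent.P305N

open Vale.Agent.P305E Vale.Agent.P305C Vale.Agent.P305LC Finset

/-- The sources in the network. -/
def lift (L : List (ℕ × ℕ)) : List (ℕ × ℕ) := L.map fun p => (3 * p.1, p.2)

theorem ms_lift (L : List (ℕ × ℕ)) (x : ℕ) : ms (lift L) (3 * x) = ms L x := by
  unfold ms lift
  rw [List.map_map]
  exact congrArg _ (List.map_congr_left fun e _ => by simp)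

theorem ms_lift' (L : List (ℕ × ℕ)) {v : ℕ} (h : v % 3 ≠ 0) : ms (lift L) v = 0 := by
  by_contra a
  obtain ⟨p, h1, h2, -⟩ := ms_pos a
  obtain ⟨e, -, rfl⟩ := List.mem_map.1 h1
  dsimp only at h2
  omega

theorem tot_lift (L : List (ℕ × ℕ)) : tot (lift L) = tot L := by
  unfold tot lift; rw [List.map_map]; rfl

/-- The net flow. -/
def nf (f : ℕ → ℕ → ℕ) (u v : ℕ) : ℤ := (f u v : ℤ) - f v u

/-- The net flow to the parent in a trie. -/
def nu (b : ℕ) (f : ℕ → ℕ → ℕ) (p j q : ℕ) : ℤ := nf f (tn (2 ^ b) p j q) (up b p j q)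

/-- The net flow on an arc. -/
def nk (b : ℕ) (V : Vw) (f : ℕ → ℕ → ℕ) (k : ℕ) : ℤ :=
  if V.tl k = 0 then 0 else nf f (3 * (k / 3)) (tn (2 ^ b) (V.tl k) 0 k)

theorem nf_neg (f : ℕ → ℕ → ℕ) (u v : ℕ) : nf f u v = -nf f v u := by unfold nf; ring

theorem cons_int {N : Nw} {src don r : List (ℕ × ℕ)} {f : ℕ → ℕ → ℕ} {R : List ℕ}
    (F : Flw N src f R don r) (v : ℕ) :
    (ms src v : ℤ) = ms r v + ms don v + ((N.adj v).map (nf f v)).sum := by
  have a := F.cons v
  have : ∀ l : List ℕ, (l.map (nf f v)).sum =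
      ((l.map fun w => f v w).sum : ℕ) - ((l.map fun w => f w v).sum : ℕ) := fun l => by
    induction l with
    | nil => simp
    | cons w l ih => simp only [List.map_cons, List.sum_cons, ih, nf]; push_cast; ring
  rw [this]
  omega

theorem nf_le {N : Nw} {src don r : List (ℕ × ℕ)} {f : ℕ → ℕ → ℕ} {R : List ℕ}
    (F : Flw N src f R don r) (u v : ℕ) : nf f u v ≤ N.cap u v := by
  have := F.cap u v; unfold nf; omega

variable {b U : ℕ} {V : Vw} {s : NT} {src don r : List (ℕ × ℕ)} {f : ℕ → ℕ → ℕ} {R : List ℕ}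

theorem rest_z (F : Flw (nw b U V s) (lift src) f R don r) {v : ℕ} (h : v % 3 ≠ 0) : ms r v = 0 := by
  have := F.rest v; rw [ms_lift' _ h] at this; omega

theorem cons_leaf (h : Inv b U V s) (F : Flw (nw b U V s) (lift src) f R don r) {p q : ℕ}
    (hp : p ∈ V.P) (hq : q < 2 ^ b) :
    ms don (tn (2 ^ b) p 0 q) + nu b f p 0 q = if V.tl q = p then nk b V f q else 0 := by
  have a := cons_int F (tn (2 ^ b) p 0 q)
  have m : tn (2 ^ b) p 0 q % 3 ≠ 0 := by rw [tn_mod]; omega
  rw [ms_lift' _ m, rest_z F m, adj_leaf h p hq, List.map_cons, List.sum_cons, sum_oc] at a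
  unfold nu nk
  split_ifs at a ⊢ with c c'
  · exact absurd ((c.symm.trans c') ▸ hp) h.ok.zP
  · rw [c, nf_neg f (3 * _)]; simp at a; omega
  · simp at a; omega

theorem cons_mid (F : Flw (nw b U V s) (lift src) f R don r) (p : ℕ) {j q : ℕ} (hj : j + 1 ≤ b)
    (hq : q < 2 ^ b) : ms don (tn (2 ^ b) p (j + 1) q) + nu b f p (j + 1) q =
      nu b f p j (2 * q) + nu b f p j (2 * q + 1) := by
  have a := cons_int F (tn (2 ^ b) p (j + 1) q)
  have m : tn (2 ^ b) p (j + 1) q % 3 ≠ 0 := by rw [tn_mod]; omega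
  rw [ms_lift' _ m, rest_z F m, adj_mid p hj hq] at a
  unfold nu
  rw [up_even p q hj, up_odd p q hj, nf_neg f (tn _ p j _), nf_neg f (tn _ p j _)]
  simp at a
  omega

theorem cons_out (h : Inv b U V s) (F : Flw (nw b U V s) (lift src) f R don r) {p : ℕ}
    (hp : p ∈ V.P) : ms src p + nu b f p b 0 ≤
      ms r (3 * p) + ms don (3 * p) + exp b U V s.x.get p := by
  have a := cons_int F (3 * p)
  have c := nf_le F (3 * p) (cn (2 ^ b) p 0)
  rw [ms_lift, adj_out h hp, List.map_cons, List.sum_cons, sum_oc] at a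
  rw [cap_ch0, h.exs_eq] at c
  rw [nu, up, if_pos rfl, nf_neg]
  simp only [List.map_nil, List.sum_nil] at a
  split_ifs at a <;> omega

theorem cons_inn (h : Inv b U V s) (F : Flw (nw b U V s) (lift src) f R don r) {y : ℕ}
    (hy : y ∈ V.I) : (ms src y : ℤ) = ms r (3 * y) + ms don (3 * y) +
      (nk b V f (3 * y) + nk b V f (3 * y + 1) + nk b V f (3 * y + 2)) := by
  have a := cons_int F (3 * y)
  rw [ms_lift, adj_inn h hy, sum_oc, sum_oc, sum_oc] at a
  simp only [nk, show 3 * y / 3 = y by omega, show (3 * y + 1) / 3 = y by omega,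
    show (3 * y + 2) / 3 = y by omega]
  simp only [List.map_nil, List.sum_nil, ne_eq, ite_not] at a
  omega

theorem nu_ge (h : Inv b U V s) (F : Flw (nw b U V s) (lift src) f R don r) {p j q : ℕ}
    (hp : p ∈ V.P) (hj : j ≤ b) (hq : q < 2 ^ (b - j)) :
    -nu b f p j q ≤ sub b V.tl s.x.get p j q := by
  rw [nu, ← nf_neg, ← cap_down h hp hj hq]; exact nf_le F _ _

theorem nk_ge (h : Inv b U V s) (F : Flw (nw b U V s) (lift src) f R don r) (k : ℕ) :
    -nk b V f k ≤ s.x.get k := by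
  unfold nk
  split_ifs with c
  · simp
  · rw [← nf_neg, ← cap_leaf h (h.ok.arc k c).2 (V.tl k) (h.ok.key_lt c)]; exact nf_le F _ _

theorem tree (h : Inv b U V s) (F : Flw (nw b U V s) (lift src) f R don r) {p : ℕ} (hp : p ∈ V.P) :
    ∀ j q, j ≤ b → q < 2 ^ (b - j) → Dt (2 ^ b) (ms don) p j q + nu b f p j q =
      dy b (fun k => if V.tl k = p then nk b V f k else 0) j q
  | 0, q, _, hq => by rw [dy_zero _ (q_lt hq), Dt, cons_leaf h F hp (q_lt hq)]
  | j + 1, q, hj, hq => by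
    have c := child_lt hj hq
    have := cons_mid F p hj (q_lt hq)
    rw [dy_succ, ← tree h F hp j _ (by omega) (by omega), ← tree h F hp j _ (by omega) c, Dt]
    push_cast
    omega

theorem dy_congr {M : Type} [AddCommMonoid M] {c : ℕ → Prop} [DecidablePred c] {w w' : ℕ → M}
    {j q : ℕ} (h : dy b (fun k => if c k then 1 else 0) j q = 0) (e : ∀ k, ¬ c k → w k = w' k) :
    dy b w j q = dy b w' j q := sum_congr rfl fun k hk => by
  have := sum_eq_zero_iff.1 h k hk
  split_ifs with a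
  · exact e k fun a' => by simp [a, a'] at this
  · rfl

theorem dy_cast (w : ℕ → ℕ) (j q : ℕ) : ((dy b w j q : ℕ) : ℤ) = dy b (fun k => (w k : ℤ)) j q := by
  unfold dy; push_cast; rfl

/-- The marked keys pay for the donations on their paths. -/
theorem dense (h : Inv b U V s) (F : Flw (nw b U V s) (lift src) f R don r) {κ : ℕ}
    (hκ : ∀ v, ms don v ≤ κ) {p : ℕ} (hp : p ∈ V.P) (c : ℕ → Prop) [DecidablePred c] :
    ∀ j q, j ≤ b → q < 2 ^ (b - j) → -nu b f p j q ≤
      dy b (fun k => if V.tl k = p then (if c k then -nk b V f k else s.x.get k) else 0) j q +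
        (κ * (j + 1) * dy b (fun k => if V.tl k = p ∧ c k then 1 else 0) j q : ℕ) := by
  intro j
  have z : ∀ j q, j ≤ b → q < 2 ^ (b - j) →
      dy b (fun k => if V.tl k = p ∧ c k then 1 else 0) j q = 0 → -nu b f p j q ≤
      dy b (fun k => if V.tl k = p then (if c k then -nk b V f k else s.x.get k) else 0) j q :=
    fun j q hj hq e => by
    refine (nu_ge h F hp hj hq).trans_eq ?_
    rw [sub_eq, dy_cast]
    exact dy_congr e fun k a => by
      by_cases a' : V.tl k = p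
      · simp [a', show ¬ c k from fun e => a ⟨a', e⟩]
      · simp [a']
  induction j with
  | zero =>
    intro q hj hq
    by_cases e : V.tl q = p ∧ c q
    · have := cons_leaf h F hp (q_lt hq)
      have := hκ (tn (2 ^ b) p 0 q)
      simp only [dy_zero _ (q_lt hq), e.1, e.2, if_true, and_self] at *
      omega
    · have := z 0 q hj hq (by rw [dy_zero _ (q_lt hq), if_neg e])
      omega
  | succ j ih =>
    intro q hj hq
    by_cases e : dy b (fun k => if V.tl k = p ∧ c k then 1 else 0) (j + 1) q = 0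
    · have := z _ q hj hq e
      omega
    · have c1 := child_lt hj hq
      have i0 := ih (2 * q) (by omega) (by omega)
      have i1 := ih _ (by omega) c1
      have := cons_mid F p hj (q_lt hq)
      have := hκ (tn (2 ^ b) p (j + 1) q)
      rw [dy_succ] at e
      rw [dy_succ, dy_succ]
      generalize dy b (fun k => if V.tl k = p ∧ c k then 1 else 0) j (2 * q) = n0 at *
      generalize dy b (fun k => if V.tl k = p ∧ c k then 1 else 0) j (2 * q + 1) = n1 at *
      have : κ * (j + 1) * n0 + κ * (j + 1) * n1 + κ ≤ κ * (j + 1 + 1) * (n0 + n1) := by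
        have : κ * 1 ≤ κ * (n0 + n1) := Nat.mul_le_mul_left _ (by omega)
        nlinarith
      omega

theorem succ_flow (h : Inv b U V s) (F : Flw (nw b U V s) (lift src) f R don []) {κ : ℕ}
    (hκ : ∀ v, ms don v ≤ κ) {Ps Ys : Finset ℕ} (c : V.Cls Ps Ys) :
    ∑ x ∈ Ps, ms src x + ∑ x ∈ Ys, ms src x + U * Ys.card ≤
      (3 * b + 4) * κ * (Ps.card + Ys.card) + U * Ps.card + V.dts Ps Ys := by
  have e := h.ident c
  have a1 := sum_le_sum fun p hp => cons_out h F (c.sP hp)
  have a2 := sum_congr rfl fun y hy => cons_inn h F (c.sI hy)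
  have a3 := sum_le_sum fun p hp => dense h F hκ (c.sP hp) (fun k => k / 3 ∈ Ys) b 0 le_rfl (by simp)
  have a4 := c.split h.ok (fun k => if k / 3 ∈ Ys then -nk b V f k else s.x.get k) fun k a => by
    simp [nk, a, h.x0 k a]
  have a5 : ∑ p ∈ Ps, dy b (fun k => if V.tl k = p ∧ k / 3 ∈ Ys then 1 else 0) b 0 ≤ 3 * Ys.card := by
    simp only [dy_top, ite_and]
    rw [sum_fib (2 ^ b) V.tl fun k => if k / 3 ∈ Ys then 1 else 0]
    refine (sum_le_sum (g := fun k => if k / 3 ∈ Ys then 1 else 0) fun k _ => ?_).trans ?_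
    · split_ifs <;> omega
    · rw [← sum_heads (fun _ => 1) fun y hy => h.ok.ltI y (c.sI hy)]; simp [mul_comm]
  have a6 : ∑ y ∈ Ys, ((if 3 * y / 3 ∈ Ys then -nk b V f (3 * y) else s.x.get (3 * y)) +
      (if (3 * y + 1) / 3 ∈ Ys then -nk b V f (3 * y + 1) else s.x.get (3 * y + 1)) +
      if (3 * y + 2) / 3 ∈ Ys then -nk b V f (3 * y + 2) else s.x.get (3 * y + 2)) =
      -∑ y ∈ Ys, (nk b V f (3 * y) + nk b V f (3 * y + 1) + nk b V f (3 * y + 2)) := by
    rw [← sum_neg_distrib]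
    refine sum_congr rfl fun y hy => ?_
    simp only [show 3 * y / 3 = y by omega, show (3 * y + 1) / 3 = y by omega,
      show (3 * y + 2) / 3 = y by omega, hy, if_true]
    ring
  have a7 : ∑ k ∈ range (2 ^ b), (if V.tl k ∈ Ps ∧ k / 3 ∉ Ys then
      (if k / 3 ∈ Ys then -nk b V f k else s.x.get k) else 0) = (expo b V s.x.get Ps Ys : ℕ) := by
    unfold expo
    push_cast
    exact sum_congr rfl fun k _ => by split_ifs <;> first | rfl | tauto
  have a8 : ∑ p ∈ Ps, ms don (3 * p) ≤ Ps.card * κ := sum_le_card_nsmul _ _ _ fun _ _ => hκ _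
  have a9 : ∑ p ∈ Ys, ms don (3 * p) ≤ Ys.card * κ := sum_le_card_nsmul _ _ _ fun _ _ => hκ _
  rw [a6, a7] at a4
  simp only [sum_add_distrib, ms_nil, ← Nat.cast_sum, sum_neg_distrib, ← mul_sum, sum_const_zero]
    at a1 a2 a3 a4
  simp only [dy_top] at a3 a5
  rw [a4] at a3
  have := Nat.mul_le_mul_left (κ * (b + 1)) a5
  have : Ps.card * κ + Ys.card * κ + κ * (b + 1) * (3 * Ys.card) ≤
      (3 * b + 4) * κ * (Ps.card + Ys.card) := by
    nlinarith [Nat.zero_le (b * κ * Ps.card), Nat.zero_le (κ * Ps.card)]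
  omega

theorem fail_flow (h : Inv b U V s) (hd : ∀ p ∈ V.P, V.dt p ≤ 2 ^ b)
    (F : Flw (nw b U V s) (lift src) f R don r) (hs : V.Am src) (ht : tot src ≤ 2 * 2 ^ b)
    {Z : Finset ℕ} (hZ : ∀ v ∈ Z, v ∈ R) {ρ : ℕ} (h1 : 1 ≤ ρ)
    (hv : 2 * (nw b U V s).val f ρ r Z ≤ tot r) {Ps Ys : Finset ℕ}
    (hP : Ps = V.P.filter fun p => 3 * p ∈ Z) (hY : Ys = V.I.filter fun y => 3 * y ∈ Z) :
    V.Cls Ps Ys ∧ 2 * (U * Ps.card + V.dts Ps Ys) + tot r ≤
      2 * (U * Ys.card + (∑ x ∈ Ps, ms src x + ∑ x ∈ Ys, ms src x)) := by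
  have a := cut_cap (nw_ok h hd) F (fun v hv => F.nd v (hZ v hv)) hv
  have a1 := sum_ms_le (lift src) Z
  have h2 : 1 ≤ 2 ^ b := Nat.one_le_two_pow
  rw [tot_lift] at a1
  have c := cut_cls h (Z := Z) fun u hu => by
    have := single_le_sum (f := co (nw b U V s) Z) (fun _ _ => Nat.zero_le _) hu
    omega
  have a2 := cut_val h hd Z
  rw [← hP, ← hY] at c a2
  have a3 := h.ident c
  have a4 : ∑ u ∈ Z, ms (lift src) u ≤ ∑ x ∈ Ps, ms src x + ∑ x ∈ Ys, ms src x := by
    rw [sum_ms, sum_ms, sum_ms, lift, List.map_map, ← List.sum_map_add]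
    refine List.sum_le_sum fun e he => ?_
    simp only [Function.comp, hP, hY, mem_filter]
    by_cases a : 3 * e.1 ∈ Z
    · rcases (hs e he).1 with a' | a' <;> simp [a, a']
    · simp [a]
  have := Nat.mul_le_mul_right Z.card h1
  exact ⟨c, by omega⟩

end Vale.Agent.P305N
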