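import Vale.Agent.P305N.Upd

/-!
# The explicit fractional matching: the implicit network and its oracle
-/

namespace Vale.Agent.P305N

open Vale.Agent.P305E Vale.Agent.P305C Vale.Agent.P305LC Finset

/-- The name of a node of a trie. -/
def tn (H p j q : ℕ) : ℕ := 3 * cd H p q j + 1
/-- The name of a node of a chain. -/
def cn (H p i : ℕ) : ℕ := 3 * (p * (2 * H) + i) + 2
/-- The exposure. -/
def exs (H b U : ℕ) (s : NT) (p : ℕ) : ℕ := U + s.dt.get p - s.sm.get (cd H p 0 b)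
/-- One more entry, under a condition. -/
def oc (c : Prop) [Decidable c] (a : ℕ) (l : List ℕ) : List ℕ := if c then a :: l else l
/-- The program for `oc`. -/
def ocM (c : Prop) [Decidable c] (a : ℕ) (l : List ℕ) : M (List ℕ) :=
  if c then num a >>= fun x => pure (x :: l) else pure l

theorem mem_oc {c : Prop} [Decidable c] {a w : ℕ} {l : List ℕ} :
    w ∈ oc c a l ↔ (c ∧ w = a) ∨ w ∈ l := by unfold oc; split_ifs <;> simp [*]

theorem Tri_ocM {x : Cx} (c : Prop) [Decidable c] (a : ℕ) (l : List ℕ) (Q : List ℕ → ℕ → Prop) :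
    Tri x (ocM c a l) Q ↔ (c → a ≤ x.B) ∧ Q (oc c a l) 0 := by
  unfold ocM oc; split_ifs <;> simp only [Tri_bind, Tri_num, Tri_pure] <;> simp [*]

theorem sum_oc {R : Type} [AddCommMonoid R] (c : Prop) [Decidable c] (a : ℕ) (l : List ℕ)
    (f : ℕ → R) : ((oc c a l).map f).sum = (if c then f a else 0) + (l.map f).sum := by
  unfold oc; split_ifs <;> simp

/-- The neighbours. -/
def adjF (H b U : ℕ) (s : NT) (v : ℕ) : List ℕ :=
  if v % 3 = 0 then
    if s.inn.get (v / 3) = true then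
      oc (s.tl.get v ≠ 0) (tn H (s.tl.get v) 0 v)
        (oc (s.tl.get (v + 1) ≠ 0) (tn H (s.tl.get (v + 1)) 0 (v + 1))
          (oc (s.tl.get (v + 2) ≠ 0) (tn H (s.tl.get (v + 2)) 0 (v + 2)) []))
    else oc True (tn H (v / 3) b 0) (oc (0 < exs H b U s (v / 3)) (cn H (v / 3) 0) [])
  else if v % 3 = 1 then
    oc True (if v / 3 % H = b then 3 * (v / 3 / H / H) else
        tn H (v / 3 / H / H) (v / 3 % H + 1) (v / 3 / H % H / 2))
      (oc (v / 3 % H = 0 ∧ s.tl.get (v / 3 / H % H) = v / 3 / H / H) (3 * (v / 3 / H % H / 3))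
        (oc (v / 3 % H ≠ 0) (tn H (v / 3 / H / H) (v / 3 % H - 1) (2 * (v / 3 / H % H)))
          (oc (v / 3 % H ≠ 0) (tn H (v / 3 / H / H) (v / 3 % H - 1) (2 * (v / 3 / H % H) + 1)) [])))
  else oc True (if v / 3 % (2 * H) = 0 then 3 * (v / 3 / (2 * H)) else v - 3)
    (oc (v / 3 % (2 * H) + 1 < exs H b U s (v / 3 / (2 * H))) (v + 3) [])

/-- The program for the neighbours. -/
def adjP (H b U : ℕ) (s : NT) (v : ℕ) : M (List ℕ) :=
  if v % 3 = 0 then
    if s.inn.get (v / 3) = true then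
      ocM (s.tl.get (v + 2) ≠ 0) (tn H (s.tl.get (v + 2)) 0 (v + 2)) [] >>= fun l =>
        ocM (s.tl.get (v + 1) ≠ 0) (tn H (s.tl.get (v + 1)) 0 (v + 1)) l >>= fun l' =>
          ocM (s.tl.get v ≠ 0) (tn H (s.tl.get v) 0 v) l'
    else ocM (0 < exs H b U s (v / 3)) (cn H (v / 3) 0) [] >>= fun l => ocM True (tn H (v / 3) b 0) l
  else if v % 3 = 1 then
    ocM (v / 3 % H ≠ 0) (tn H (v / 3 / H / H) (v / 3 % H - 1) (2 * (v / 3 / H % H) + 1)) [] >>=
      fun l => ocM (v / 3 % H ≠ 0) (tn H (v / 3 / H / H) (v / 3 % H - 1) (2 * (v / 3 / H % H))) l >>=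
        fun l' => ocM (v / 3 % H = 0 ∧ s.tl.get (v / 3 / H % H) = v / 3 / H / H)
          (3 * (v / 3 / H % H / 3)) l' >>= fun l'' =>
            ocM True (if v / 3 % H = b then 3 * (v / 3 / H / H) else
              tn H (v / 3 / H / H) (v / 3 % H + 1) (v / 3 / H % H / 2)) l''
  else ocM (v / 3 % (2 * H) + 1 < exs H b U s (v / 3 / (2 * H))) (v + 3) [] >>= fun l =>
    ocM True (if v / 3 % (2 * H) = 0 then 3 * (v / 3 / (2 * H)) else v - 3) l

/-- The capacities. -/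
def capF (H b U : ℕ) (s : NT) (v w : ℕ) : ℕ :=
  if v % 3 = 0 then
    if w % 3 = 1 then (if s.inn.get (v / 3) = true then 4 * H else s.sm.get (w / 3))
    else exs H b U s (v / 3)
  else if v % 3 = 1 then
    if w % 3 = 0 then (if s.inn.get (w / 3) = true then s.x.get (v / 3 / H % H) else 4 * H)
    else if w / 3 % H < v / 3 % H then s.sm.get (w / 3) else 4 * H
  else if w % 3 = 2 ∧ v < w then exs H b U s (v / 3 / (2 * H)) - (v / 3 % (2 * H) + 1) else 0

/-- The state of the oracle: `2 ^ b`, `b`, `U` and the state. -/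
abbrev OS : Type := ℕ × ℕ × ℕ × NT

/-- The oracle. -/
def nbP (z : OS) (v : ℕ) : M (List Ac) :=
  adjP z.1 z.2.1 z.2.2.1 z.2.2.2 v >>= fun l => mapM' (fun w =>
    num (capF z.1 z.2.1 z.2.2.1 z.2.2.2 v w) >>= fun a =>
      num (capF z.1 z.2.1 z.2.2.1 z.2.2.2 w v) >>= fun a' => pure (w, a, a')) l

section impl
variable {α : Type} [Rep α]

@[fun_prop] theorem Grow.tn {H p q j : α → ℕ} (h1 : Grow H) (h2 : Grow p) (h3 : Grow j)
    (h4 : Grow q) : Grow fun a => tn (H a) (p a) (j a) (q a) := by unfold P305N.tn; fun_prop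

@[fun_prop] theorem Grow.cn {H p i : α → ℕ} (h1 : Grow H) (h2 : Grow p) (h3 : Grow i) :
    Grow fun a => cn (H a) (p a) (i a) := by unfold P305N.cn; fun_prop

@[fun_prop] theorem Grow.exs {H b U p : α → ℕ} {s : α → NT} (h1 : Grow H) (h2 : Grow b)
    (h3 : Grow U) (h4 : Pure s) (h5 : Grow p) :
    Grow fun a => exs (H a) (b a) (U a) (s a) (p a) := by
  have h6 : Pure fun a => (s a).dt := by fun_prop
  have h7 : Pure fun a => (s a).sm := by fun_prop
  exact Grow.sub (Grow.add h3 (Grow.arrGet h6 h5)) (Grow.arrGet h7 (by fun_prop))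

@[fun_prop] theorem Impl.ocM {c : α → Prop} [DecidablePred c] {x : α → ℕ} {l : α → List ℕ}
    (h1 : PPred c) (h2 : Grow x) (h3 : Pure l) : Impl fun a => ocM (c a) (x a) (l a) := by
  unfold P305N.ocM; fun_prop

end impl

theorem grow_capF : Grow fun p : OS × ℕ × ℕ =>
    capF p.1.1 p.1.2.1 p.1.2.2.1 p.1.2.2.2 p.2.1 p.2.2 := by unfold capF; fun_prop

theorem impl_adjP : Impl fun p : OS × ℕ => adjP p.1.1 p.1.2.1 p.1.2.2.1 p.1.2.2.2 p.2 := by
  unfold adjP; fun_prop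

theorem impl_nbP : Impl fun p : OS × ℕ => nbP p.1 p.2 := by
  have h1 : Grow fun q : ((OS × ℕ) × List ℕ) × ℕ =>
      capF q.1.1.1.1 q.1.1.1.2.1 q.1.1.1.2.2.1 q.1.1.1.2.2.2 q.1.1.2 q.2 :=
    Grow.comp (g := fun q : ((OS × ℕ) × List ℕ) × ℕ => (q.1.1.1, q.1.1.2, q.2)) grow_capF
      (by fun_prop)
  have h2 : Grow fun q : (((OS × ℕ) × List ℕ) × ℕ) × ℕ =>
      capF q.1.1.1.1.1 q.1.1.1.1.2.1 q.1.1.1.1.2.2.1 q.1.1.1.1.2.2.2 q.1.2 q.1.1.1.2 :=
    Grow.comp (g := fun q : (((OS × ℕ) × List ℕ) × ℕ) × ℕ => (q.1.1.1.1, q.1.2, q.1.1.1.2))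
      grow_capF (by fun_prop)
  exact Impl.bind impl_adjP (Impl.mapM' (Impl.bind (Impl.num h1) (Impl.bind (Impl.num h2)
    (by fun_prop))) (by fun_prop))

/-- The nodes of the network. -/
inductive Nod (b U : ℕ) (V : Vw) (s : NT) : ℕ → Prop
  | inn {y : ℕ} (h : y ∈ V.I) : Nod b U V s (3 * y)
  | out {p : ℕ} (h : p ∈ V.P) : Nod b U V s (3 * p)
  | tr {p j q : ℕ} (h : p ∈ V.P) (hj : j ≤ b) (hq : q < 2 ^ (b - j)) : Nod b U V s (tn (2 ^ b) p j q)
  | ch {p i : ℕ} (h : p ∈ V.P) (hi : i < exs (2 ^ b) b U s p) : Nod b U V s (cn (2 ^ b) p i)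

/-- The network. -/
def nw (b U : ℕ) (V : Vw) (s : NT) : Nw := ⟨Nod b U V s, adjF (2 ^ b) b U s, capF (2 ^ b) b U s⟩

variable {B b U : ℕ} {V : Vw} {s : NT}

theorem q_lt {j q : ℕ} (h : q < 2 ^ (b - j)) : q < 2 ^ b :=
  h.trans_le (Nat.pow_le_pow_right (by omega) (by omega))

theorem tn_mod (H p j q : ℕ) : tn H p j q % 3 = 1 := by unfold tn; omega
theorem tn_div (H p j q : ℕ) : tn H p j q / 3 = cd H p q j := by unfold tn; omega
theorem cn_mod (H p i : ℕ) : cn H p i % 3 = 2 := by unfold cn; omega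
theorem cn_div (H p i : ℕ) : cn H p i / 3 = p * (2 * H) + i := by unfold cn; omega
theorem cn_i {H i : ℕ} (p : ℕ) (h : i < 2 * H) : (p * (2 * H) + i) % (2 * H) = i :=
  Nat.mul_add_mod_of_lt h
theorem cn_p {H i : ℕ} (p : ℕ) (h : i < 2 * H) : (p * (2 * H) + i) / (2 * H) = p := by
  rw [Nat.add_comm, Nat.add_mul_div_right _ _ (by omega), Nat.div_eq_of_lt h, Nat.zero_add]
theorem cn_succ (H p i : ℕ) : cn H p i + 3 = cn H p (i + 1) := by unfold cn; omega
theorem tn_inj {p j q p' j' q' : ℕ} (h : j ≤ b) (hq : q < 2 ^ b) (h' : j' ≤ b) (hq' : q' < 2 ^ b) :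
    tn (2 ^ b) p j q = tn (2 ^ b) p' j' q' ↔ p = p' ∧ q = q' ∧ j = j' := by
  rw [← cd_inj (lt_H h) hq (lt_H h') hq']; unfold tn; omega

theorem Inv.exs_eq (h : Inv b U V s) (p : ℕ) : exs (2 ^ b) b U s p = exp b U V s.x.get p := by
  unfold exs exp; rw [h.dt, h.sm p b 0 le_rfl (by positivity)]

theorem Inv.not_inn (h : Inv b U V s) {p : ℕ} (hp : p ∈ V.P) : ¬ s.inn.get p = true :=
  fun a => h.ok.dis p ((h.inn p).1 a) hp

theorem adj_inn (h : Inv b U V s) {y : ℕ} (hy : y ∈ V.I) : (nw b U V s).adj (3 * y) =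
    oc (V.tl (3 * y) ≠ 0) (tn (2 ^ b) (V.tl (3 * y)) 0 (3 * y))
      (oc (V.tl (3 * y + 1) ≠ 0) (tn (2 ^ b) (V.tl (3 * y + 1)) 0 (3 * y + 1))
        (oc (V.tl (3 * y + 2) ≠ 0) (tn (2 ^ b) (V.tl (3 * y + 2)) 0 (3 * y + 2)) [])) := by
  simp only [nw, adjF, Nat.mul_mod_right, if_true, show 3 * y / 3 = y by omega, (h.inn y).2 hy, h.tl]

theorem adj_out (h : Inv b U V s) {p : ℕ} (hp : p ∈ V.P) : (nw b U V s).adj (3 * p) =
    tn (2 ^ b) p b 0 :: oc (0 < exs (2 ^ b) b U s p) (cn (2 ^ b) p 0) [] := by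
  simp only [nw, adjF, Nat.mul_mod_right, if_true, show 3 * p / 3 = p by omega,
    if_neg (h.not_inn hp), oc]

/-- The parent in a trie. -/
def up (b p j q : ℕ) : ℕ := if j = b then 3 * p else tn (2 ^ b) p (j + 1) (q / 2)

theorem adj_leaf (h : Inv b U V s) (p : ℕ) {q : ℕ} (hq : q < 2 ^ b) :
    (nw b U V s).adj (tn (2 ^ b) p 0 q) = up b p 0 q :: oc (V.tl q = p) (3 * (q / 3)) [] := by
  have a : 0 < 2 ^ b := by positivity
  simp [nw, adjF, tn_mod, tn_div, cd_mod _ _ a, cd_q _ a hq, cd_p _ a hq, oc, up, h.tl]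

theorem adj_mid (p : ℕ) {j q : ℕ} (hj : j + 1 ≤ b) (hq : q < 2 ^ b) :
    (nw b U V s).adj (tn (2 ^ b) p (j + 1) q) =
      [up b p (j + 1) q, tn (2 ^ b) p j (2 * q), tn (2 ^ b) p j (2 * q + 1)] := by
  have a := lt_H hj
  simp [nw, adjF, tn_mod, tn_div, cd_mod _ _ a, cd_q _ a hq, cd_p _ a hq, oc, up]

theorem adj_ch (p : ℕ) {i : ℕ} (hi : i < 2 * 2 ^ b) : (nw b U V s).adj (cn (2 ^ b) p i) =
    (if i = 0 then 3 * p else cn (2 ^ b) p (i - 1)) ::
      oc (i + 1 < exs (2 ^ b) b U s p) (cn (2 ^ b) p (i + 1)) [] := by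
  simp only [nw, adjF, cn_mod, cn_div, cn_i p hi, cn_p p hi, cn_succ, oc, if_true]
  simp only [show ¬ (2 = 0) by omega, show ¬ (2 = 1) by omega, if_false]
  congr 1
  split_ifs
  · rfl
  · unfold cn; omega

theorem cap_inn (h : Inv b U V s) {y : ℕ} (hy : y ∈ V.I) (p j q : ℕ) :
    (nw b U V s).cap (3 * y) (tn (2 ^ b) p j q) = 4 * 2 ^ b := by
  simp [nw, capF, tn_mod, (h.inn y).2 hy]

theorem cap_top (h : Inv b U V s) {p : ℕ} (hp : p ∈ V.P) :
    (nw b U V s).cap (3 * p) (tn (2 ^ b) p b 0) = sub b V.tl s.x.get p b 0 := by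
  simp [nw, capF, tn_mod, tn_div, h.not_inn hp, h.sm]

theorem cap_ch0 (p : ℕ) : (nw b U V s).cap (3 * p) (cn (2 ^ b) p 0) = exs (2 ^ b) b U s p := by
  simp [nw, capF, cn_mod]

theorem cap_leaf (h : Inv b U V s) {y : ℕ} (hy : y ∈ V.I) (p : ℕ) {q : ℕ} (hq : q < 2 ^ b) :
    (nw b U V s).cap (tn (2 ^ b) p 0 q) (3 * y) = s.x.get q := by
  have a : 0 < 2 ^ b := by positivity
  simp [nw, capF, tn_mod, tn_div, (h.inn y).2 hy, cd_q _ a hq]

theorem cap_up (h : Inv b U V s) {p j q : ℕ} (hp : p ∈ V.P) (hj : j ≤ b) :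
    (nw b U V s).cap (tn (2 ^ b) p j q) (up b p j q) = 4 * 2 ^ b := by
  unfold up
  split_ifs with c
  · simp [nw, capF, tn_mod, h.not_inn hp]
  · simp [nw, capF, tn_mod, tn_div, cd_mod _ _ (lt_H hj), cd_mod _ _ (lt_H (by omega : j + 1 ≤ b))]

theorem cap_down (h : Inv b U V s) {p j q : ℕ} (hp : p ∈ V.P) (hj : j ≤ b) (hq : q < 2 ^ (b - j)) :
    (nw b U V s).cap (up b p j q) (tn (2 ^ b) p j q) = sub b V.tl s.x.get p j q := by
  unfold up
  split_ifs with c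
  · subst c
    obtain rfl : q = 0 := by simpa using hq
    exact cap_top h hp
  · simp [nw, capF, tn_mod, tn_div, cd_mod _ _ (lt_H hj), cd_mod _ _ (lt_H (by omega : j + 1 ≤ b)),
      h.sm p j q hj (q_lt hq)]

theorem cap_ch (p : ℕ) {i : ℕ} (hi : i < 2 * 2 ^ b) :
    (nw b U V s).cap (cn (2 ^ b) p i) (cn (2 ^ b) p (i + 1)) = exs (2 ^ b) b U s p - (i + 1) := by
  have : cn (2 ^ b) p i < cn (2 ^ b) p (i + 1) := by unfold cn; omega
  simp [nw, capF, cn_mod, cn_div, cn_i p hi, cn_p p hi, this]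

theorem up_even {j : ℕ} (p q : ℕ) (hj : j + 1 ≤ b) : up b p j (2 * q) = tn (2 ^ b) p (j + 1) q := by
  rw [up, if_neg (by omega), show 2 * q / 2 = q by omega]

theorem up_odd {j : ℕ} (p q : ℕ) (hj : j + 1 ≤ b) :
    up b p j (2 * q + 1) = tn (2 ^ b) p (j + 1) q := by
  rw [up, if_neg (by omega), show (2 * q + 1) / 2 = q by omega]

theorem child_lt {j q : ℕ} (hj : j + 1 ≤ b) (hq : q < 2 ^ (b - (j + 1))) :
    2 * q + 1 < 2 ^ (b - j) := by
  rw [show b - j = b - (j + 1) + 1 by omega, pow_succ]; omega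

theorem par_lt {j q : ℕ} (hj : j + 1 ≤ b) (hq : q < 2 ^ (b - j)) : q / 2 < 2 ^ (b - (j + 1)) := by
  rw [show b - j = b - (j + 1) + 1 by omega, pow_succ] at hq; omega

theorem nod_up {p j q : ℕ} (hp : p ∈ V.P) (hj : j ≤ b) (hq : q < 2 ^ (b - j)) :
    Nod b U V s (up b p j q) := by
  unfold up
  split_ifs
  · exact .out hp
  · exact .tr hp (by omega) (par_lt (by omega) hq)

theorem mem_adj_up (h : Inv b U V s) {p j q : ℕ} (hp : p ∈ V.P) (hj : j ≤ b)
    (hq : q < 2 ^ (b - j)) : tn (2 ^ b) p j q ∈ (nw b U V s).adj (up b p j q) := by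
  unfold up
  split_ifs with c
  · subst c
    obtain rfl : q = 0 := by simpa using hq
    simp [adj_out h hp]
  · rw [adj_mid p (by omega) ((Nat.div_le_self _ _).trans_lt (q_lt hq))]
    rcases Nat.mod_two_eq_zero_or_one q with e | e
    · simp [show 2 * (q / 2) = q by omega]
    · simp [show 2 * (q / 2) + 1 = q by omega]

theorem up_ne {p j q j' q' : ℕ} (hj : j ≤ b) (hq : q < 2 ^ b) (h : j' ≤ j) (hq' : q' < 2 ^ b) :
    up b p j q ≠ tn (2 ^ b) p j' q' := by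
  unfold up
  split_ifs
  · unfold tn; omega
  · rw [Ne, tn_inj (by omega) ((Nat.div_le_self _ _).trans_lt hq) (by omega) hq']; omega

theorem exs_le (h : Inv b U V s) (hd : ∀ p ∈ V.P, V.dt p ≤ 2 ^ b) {p : ℕ} (hp : p ∈ V.P) :
    exs (2 ^ b) b U s p ≤ 2 * 2 ^ b := by
  have := hd p hp; have := h.ule; unfold exs; rw [h.dt]; omega

theorem Nod.lt (h : Inv b U V s) (hd : ∀ p ∈ V.P, V.dt p ≤ 2 ^ b) {v : ℕ} (hv : Nod b U V s v) :
    v < 2 ^ (3 * b + 5) := by
  have e : 2 ^ (3 * b + 5) = 32 * (2 ^ b * 2 ^ b * 2 ^ b) := by ring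
  have h1 : 1 ≤ 2 ^ b := Nat.one_le_two_pow
  have h2 : 2 ^ b ≤ 2 ^ b * 2 ^ b := Nat.le_mul_of_pos_left _ h1
  have h3 : 2 ^ b * 2 ^ b ≤ 2 ^ b * 2 ^ b * 2 ^ b := Nat.le_mul_of_pos_right _ h1
  rw [e]
  cases hv with
  | inn a => have := h.ok.ltI _ a; omega
  | out a => have := h.ok.ltP _ a; omega
  | @tr p j q a hj hq =>
    have a1 : p * 2 ^ b ≤ 2 ^ b * 2 ^ b := Nat.mul_le_mul_right _ (by have := h.ok.ltP _ a; omega)
    have a2 := q_lt hq
    have a3 := lt_H hj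
    have a4 : (p * 2 ^ b + q) * 2 ^ b ≤ (2 * (2 ^ b * 2 ^ b)) * 2 ^ b :=
      Nat.mul_le_mul_right _ (by omega)
    unfold tn cd; nlinarith
  | @ch p i a hi =>
    have a1 : p * 2 ^ b ≤ 2 ^ b * 2 ^ b := Nat.mul_le_mul_right _ (by have := h.ok.ltP _ a; omega)
    have := exs_le h hd a
    unfold cn; nlinarith

theorem sm_bd (h : Inv b U V s) {p j q : ℕ} (hj : j ≤ b) (hq : q < 2 ^ b) :
    s.sm.get (cd (2 ^ b) p q j) ≤ 2 ^ b * 2 ^ b := by
  rw [h.sm p j q hj hq]; exact sub_le h.x_le' _ _ _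

theorem nw_sym (h : Inv b U V s) (hd : ∀ p ∈ V.P, V.dt p ≤ 2 ^ b) {v : ℕ} (hv : Nod b U V s v) :
    (∀ w ∈ (nw b U V s).adj v, Nod b U V s w ∧ v ∈ (nw b U V s).adj w ∧ w ≠ v ∧
      (nw b U V s).cap v w ≤ 4 * (2 ^ b * 2 ^ b)) ∧ ((nw b U V s).adj v).Nodup ∧
      ((nw b U V s).adj v).length ≤ 3 := by
  have h1 : 1 ≤ 2 ^ b := Nat.one_le_two_pow
  have h2 : 2 ^ b ≤ 2 ^ b * 2 ^ b := Nat.le_mul_of_pos_left _ h1
  cases hv with
  | @inn y a =>
    have lt := h.ok.ltI y a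
    have key : ∀ k, k / 3 = y → V.tl k ≠ 0 → Nod b U V s (tn (2 ^ b) (V.tl k) 0 k) ∧
        3 * y ∈ (nw b U V s).adj (tn (2 ^ b) (V.tl k) 0 k) ∧ tn (2 ^ b) (V.tl k) 0 k ≠ 3 * y ∧
        (nw b U V s).cap (3 * y) (tn (2 ^ b) (V.tl k) 0 k) ≤ 4 * (2 ^ b * 2 ^ b) :=
      fun k e c => ⟨.tr (h.ok.arc k c).1 (Nat.zero_le _) (by simpa using h.ok.key_lt c),
        by simp [adj_leaf h _ (h.ok.key_lt c), oc, e], by unfold tn; omega,
        by rw [cap_inn h a]; omega⟩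
    rw [adj_inn h a]
    refine ⟨fun w hw => ?_, ?_, by unfold oc; split_ifs <;> simp⟩
    · simp only [mem_oc, List.not_mem_nil, or_false] at hw
      rcases hw with ⟨c, rfl⟩ | ⟨c, rfl⟩ | ⟨c, rfl⟩ <;> exact key _ (by omega) c
    · have e := fun p p' k k' (a : k < 2 ^ b) (a' : k' < 2 ^ b) =>
        tn_inj (p := p) (p' := p') (Nat.zero_le b) a (Nat.zero_le b) a'
      unfold oc
      split_ifs <;> simp [e _ _ _ _ (by omega : 3 * y < 2 ^ b) (by omega : 3 * y + 1 < 2 ^ b),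
        e _ _ _ _ (by omega : 3 * y < 2 ^ b) lt, e _ _ _ _ (by omega : 3 * y + 1 < 2 ^ b) lt]
  | @out p a =>
    have := exs_le h hd a
    rw [adj_out h a]
    refine ⟨fun w hw => ?_, ?_, by unfold oc; split_ifs <;> simp⟩
    · simp only [List.mem_cons, mem_oc, List.not_mem_nil, or_false] at hw
      rcases hw with rfl | ⟨c, rfl⟩
      · refine ⟨.tr a le_rfl (by simp), ?_, by unfold tn; omega, ?_⟩
        · rcases Nat.eq_zero_or_eq_succ_pred b with e | e
          · subst e; rw [adj_leaf h p (by simp : 0 < 2 ^ 0)]; simp [up]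
          · obtain ⟨j, rfl⟩ : ∃ j, b = j + 1 := ⟨_, e⟩
            simp [adj_mid p le_rfl (by positivity : 0 < 2 ^ (j + 1)), up]
        · rw [cap_top h a]; have := sub_le h.x_le' (tl := V.tl) p b 0; omega
      · exact ⟨.ch a c, by simp [adj_ch p (by omega : 0 < 2 * 2 ^ b)], by unfold cn; omega,
          by rw [cap_ch0]; omega⟩
    · have : tn (2 ^ b) p b 0 ≠ cn (2 ^ b) p 0 := by unfold tn cn; omega
      unfold oc; split_ifs <;> simp [this]
  | @tr p j q a hj hq =>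
    have u : Nod b U V s (up b p j q) ∧ tn (2 ^ b) p j q ∈ (nw b U V s).adj (up b p j q) ∧
        up b p j q ≠ tn (2 ^ b) p j q ∧
        (nw b U V s).cap (tn (2 ^ b) p j q) (up b p j q) ≤ 4 * (2 ^ b * 2 ^ b) :=
      ⟨nod_up a hj hq, mem_adj_up h a hj hq, up_ne hj (q_lt hq) le_rfl (q_lt hq),
        by rw [cap_up h a hj]; omega⟩
    cases j with
    | zero =>
      rw [adj_leaf h p (q_lt hq)]
      have p0 : p ≠ 0 := fun e => h.ok.zP (e ▸ a)
      refine ⟨fun w hw => ?_, ?_, by unfold oc; split_ifs <;> simp⟩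
      · simp only [List.mem_cons, mem_oc, List.not_mem_nil, or_false] at hw
        rcases hw with rfl | ⟨c, rfl⟩
        · exact u
        · have y := (h.ok.arc q (c ▸ p0)).2
          refine ⟨.inn y, ?_, by unfold tn; omega, ?_⟩
          · rw [adj_inn h y]
            have e : q = 3 * (q / 3) ∨ q = 3 * (q / 3) + 1 ∨ q = 3 * (q / 3) + 2 := by omega
            rcases e with e | e | e <;> rw [← e] <;> simp [mem_oc, c, p0]
          · rw [cap_leaf h y p (q_lt hq)]; have := h.x_le' q; omega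
      · unfold oc
        split_ifs with c
        · have y := (h.ok.arc q (c ▸ p0)).2
          have : up b p 0 q ≠ 3 * (q / 3) := by
            unfold up
            split_ifs
            · exact fun e => h.ok.dis _ y ((by omega : p = q / 3) ▸ a)
            · unfold tn; omega
          simp [this]
        · simp
    | succ j =>
      have c1 := child_lt hj hq
      have c0 : 2 * q < 2 ^ (b - j) := by omega
      rw [adj_mid p hj (q_lt hq)]
      have key : ∀ q', q' < 2 ^ (b - j) → up b p j q' = tn (2 ^ b) p (j + 1) q →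
          Nod b U V s (tn (2 ^ b) p j q') ∧
          tn (2 ^ b) p (j + 1) q ∈ (nw b U V s).adj (tn (2 ^ b) p j q') ∧
          tn (2 ^ b) p j q' ≠ tn (2 ^ b) p (j + 1) q ∧ (nw b U V s).cap (tn (2 ^ b) p (j + 1) q)
            (tn (2 ^ b) p j q') ≤ 4 * (2 ^ b * 2 ^ b) := fun q' c e => by
        refine ⟨.tr a (by omega) c, ?_, e ▸ (up_ne (by omega) (q_lt c) le_rfl (q_lt c)).symm, ?_⟩
        · rw [← e]
          cases j with
          | zero => simp [adj_leaf h p (q_lt c)]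
          | succ j => simp [adj_mid p (by omega : j + 1 ≤ b) (q_lt c)]
        · rw [← e, cap_down h a (by omega) c]
          have := sub_le h.x_le' (tl := V.tl) p j q'; omega
      refine ⟨fun w hw => ?_, ?_, by simp⟩
      · simp only [List.mem_cons, List.not_mem_nil, or_false] at hw
        rcases hw with rfl | rfl | rfl
        exacts [u, key _ c0 (up_even p q hj), key _ c1 (up_odd p q hj)]
      · simp [up_ne hj (q_lt hq) (by omega : j ≤ j + 1) (q_lt c0),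
          up_ne hj (q_lt hq) (by omega : j ≤ j + 1) (q_lt c1),
          tn_inj (by omega : j ≤ b) (q_lt c0) (by omega : j ≤ b) (q_lt c1)]
  | @ch p i a hi =>
    have := exs_le h hd a
    rw [adj_ch p (by omega)]
    refine ⟨fun w hw => ?_, ?_, by unfold oc; split_ifs <;> simp⟩
    · simp only [List.mem_cons, mem_oc, List.not_mem_nil, or_false] at hw
      rcases hw with rfl | ⟨c, rfl⟩
      · split_ifs with c
        · subst c
          exact ⟨.out a, by simp [adj_out h a, mem_oc, hi], by unfold cn; omega,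
            by simp [nw, capF, cn_mod]⟩
        · obtain ⟨i, rfl⟩ : ∃ i', i = i' + 1 := ⟨i - 1, by omega⟩
          have n : ¬ cn (2 ^ b) p (i + 1) < cn (2 ^ b) p i := by unfold cn; omega
          exact ⟨.ch a (by omega), by simp [adj_ch p (by omega : i < 2 * 2 ^ b), mem_oc, hi],
            by unfold cn; omega, by simp [nw, capF, cn_mod, n]⟩
      · exact ⟨.ch a c, by simp [adj_ch p (by omega : i + 1 < 2 * 2 ^ b)], by unfold cn; omega,
          by rw [cap_ch p (by omega)]; omega⟩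
    · have : (if i = 0 then 3 * p else cn (2 ^ b) p (i - 1)) ≠ cn (2 ^ b) p (i + 1) := by
        unfold cn; split_ifs <;> omega
      unfold oc; split_ifs <;> simp_all

theorem four_le (b : ℕ) : 4 * (2 ^ b * 2 ^ b) ≤ 2 ^ (3 * b + 5) := by
  have e : 2 ^ (3 * b + 5) = 32 * (2 ^ b * 2 ^ b * 2 ^ b) := by ring
  have h3 : 2 ^ b * 2 ^ b ≤ 2 ^ b * 2 ^ b * 2 ^ b := Nat.le_mul_of_pos_right _ Nat.one_le_two_pow
  omega

theorem nw_ok (h : Inv b U V s) (hd : ∀ p ∈ V.P, V.dt p ≤ 2 ^ b) : (nw b U V s).OK (3 * b + 5) where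
  zero := fun a => by
    generalize e : 0 = v at a
    cases a with
    | @inn y a => exact h.ok.zI ((by omega : y = 0) ▸ a)
    | @out y a => exact h.ok.zP ((by omega : y = 0) ▸ a)
    | tr => unfold tn at e; omega
    | ch => unfold cn at e; omega
  cl := fun v hv w hw => by
    obtain ⟨a1, a2, a3, a4⟩ := (nw_sym h hd hv).1 w hw
    exact ⟨a1, a2, a3, a4.trans ((four_le b).trans (Nat.pow_le_pow_left (by omega) _))⟩
  nodup := fun v hv => ⟨(nw_sym h hd hv).2.1, (nw_sym h hd hv).2.2.trans (by omega)⟩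

theorem eq_map_of_forall₂ {α β : Type} {f : α → β} {l : List α} {l' : List β}
    (h : List.Forall₂ (fun a r => r = f a) l l') : l' = l.map f := by
  induction h with
  | nil => rfl
  | cons c _ ih => rw [List.map_cons, ← c, ← ih]

theorem nbP_tri (h : Inv b U V s) (hd : ∀ p ∈ V.P, V.dt p ≤ 2 ^ b) (hB : 2 ^ (3 * b + 5) ≤ B)
    {v : ℕ} (hv : Nod b U V s v) : Tri ⟨B, true⟩ (nbP (2 ^ b, b, U, s) v) fun l t =>
      l = (nw b U V s).nb v ∧ t ≤ 3 * b + 5 + 1 := by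
  obtain ⟨a1, -, a3⟩ := nw_sym h hd hv
  have a4 : ∀ w ∈ adjF (2 ^ b) b U s v, w ≤ B := fun w hw => ((a1 w hw).1.lt h hd).le.trans hB
  have k : Tri ⟨B, true⟩ (adjP (2 ^ b) b U s v) fun l t => l = adjF (2 ^ b) b U s v ∧ t = 0 := by
    unfold adjF at a4 ⊢
    unfold adjP
    split_ifs at a4 ⊢ <;> simp only [Tri_bind, Tri_ocM, mem_oc] at a4 ⊢ <;>
      refine ⟨fun c => a4 _ (by tauto), ?_⟩ <;> (try refine ⟨fun c => a4 _ (by tauto), ?_⟩) <;>
      (try refine ⟨fun c => a4 _ (by tauto), ?_⟩) <;>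
      (try refine ⟨fun c => a4 _ (by tauto), ?_⟩) <;> simp
  refine k.bind ?_
  rintro l t ⟨rfl, rfl⟩
  refine (Tri.mapM' (P := fun w r => r = (w, (nw b U V s).cap v w, (nw b U V s).cap w v))
    (T := fun _ => 0) fun w hw => ?_).mono fun l t ⟨e1, e2⟩ => ⟨?_, ?_⟩
  · have c := a1 w hw
    have c' := (nw_sym h hd c.1).1 v c.2.1
    simp only [Tri_bind, Tri_num, Tri_pure]
    exact ⟨c.2.2.2.trans ((four_le b).trans hB), c'.2.2.2.trans ((four_le b).trans hB), rfl, le_rfl⟩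
  · exact eq_map_of_forall₂ e1
  · have : (adjF (2 ^ b) b U s v).length ≤ 3 := a3
    simp at e2
    omega

end Vale.Agent.P305N
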