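import Vale.Agent.P305N.Basic

/-!
# The explicit fractional matching: primitive updates
-/

namespace Vale.Agent.P305N

open Vale.Agent.P305E Vale.Agent.P305C Vale.Agent.P305LC Finset

theorem cd_mod {H j : ℕ} (p q : ℕ) (h : j < H) : cd H p q j % H = j := by
  unfold cd; rw [Nat.mul_add_mod_of_lt h]

theorem cd_div {H j : ℕ} (p q : ℕ) (h : j < H) : cd H p q j / H = p * H + q := by
  unfold cd
  rw [Nat.add_comm, Nat.add_mul_div_right _ _ (by omega), Nat.div_eq_of_lt h, Nat.zero_add]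

theorem cd_q {H j q : ℕ} (p : ℕ) (h : j < H) (h' : q < H) : cd H p q j / H % H = q := by
  rw [cd_div p q h, Nat.mul_add_mod_of_lt h']

theorem cd_p {H j q : ℕ} (p : ℕ) (h : j < H) (h' : q < H) : cd H p q j / H / H = p := by
  rw [cd_div p q h, Nat.add_comm, Nat.add_mul_div_right _ _ (by omega), Nat.div_eq_of_lt h',
    Nat.zero_add]

theorem cd_inj {H p q j p' q' j' : ℕ} (h : j < H) (hq : q < H) (h' : j' < H) (hq' : q' < H) :
    cd H p q j = cd H p' q' j' ↔ p = p' ∧ q = q' ∧ j = j' := by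
  refine ⟨fun e => ⟨?_, ?_, ?_⟩, fun ⟨a, b, c⟩ => by rw [a, b, c]⟩
  · rw [← cd_p p h hq, e, cd_p p' h' hq']
  · rw [← cd_q p h hq, e, cd_q p' h' hq']
  · rw [← cd_mod p q h, e, cd_mod p' q' h']

@[fun_prop] theorem Grow.cd {α : Type} [Rep α] {H p q j : α → ℕ} (h1 : Grow H) (h2 : Grow p)
    (h3 : Grow q) (h4 : Grow j) : Grow fun a => cd (H a) (p a) (q a) (j a) := by
  unfold P305N.cd; fun_prop

theorem lt_H {b j : ℕ} (h : j ≤ b) : j < 2 ^ b := h.trans_lt Nat.lt_two_pow_self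

/-- The sums in the tries are correct. -/
def Sm (b : ℕ) (s : NT) : Prop :=
  ∀ p j q, j ≤ b → q < 2 ^ b → s.sm.get (cd (2 ^ b) p q j) = sub b s.tl.get s.x.get p j q

theorem sub_le {b : ℕ} {tl x : ℕ → ℕ} (h : ∀ k, x k ≤ 2 ^ b) (p j q : ℕ) :
    sub b tl x p j q ≤ 2 ^ b * 2 ^ b := by
  refine (sum_le_card_nsmul _ _ (2 ^ b) fun k _ => ?_).trans (by simp)
  split_ifs
  · exact h k
  · exact Nat.zero_le _

theorem sub_update {b k : ℕ} (tl x : ℕ → ℕ) (hk : k < 2 ^ b) (a p j q : ℕ) :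
    sub b tl (Function.update x k a) p j q =
      if tl k = p ∧ k / 2 ^ j = q then sub b tl x p j q + a - x k else sub b tl x p j q := by
  unfold sub
  have m := mem_range.2 hk
  rw [← add_sum_erase _ _ m, ← add_sum_erase _ _ m, Function.update_self]
  have e : ∑ i ∈ (range (2 ^ b)).erase k, (if tl i = p ∧ i / 2 ^ j = q then
      Function.update x k a i else 0) = ∑ i ∈ (range (2 ^ b)).erase k,
      if tl i = p ∧ i / 2 ^ j = q then x i else 0 :=
    sum_congr rfl fun i hi => by rw [Function.update_of_ne (ne_of_mem_erase hi)]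
  rw [e]
  split_ifs <;> omega

theorem sub_congr {b : ℕ} {tl x tl' x' : ℕ → ℕ} {p : ℕ}
    (h : ∀ k, (if tl k = p then x k else 0) = if tl' k = p then x' k else 0) (j q : ℕ) :
    sub b tl x p j q = sub b tl' x' p j q := by
  rw [sub_eq, sub_eq, funext h]

/-- The change of the sums on the way from the leaf `k` to the top of the trie of `p`. -/
def bump (n H : ℕ) (sm : Arr ℕ) (p k a a' : ℕ) : M (Arr ℕ × ℕ) :=
  iterM (fun (z : Arr ℕ × ℕ) j => num (z.1.get (cd H p z.2 j) + a - a') >>= fun v =>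
    pure (z.1.set (cd H p z.2 j) v, z.2 / 2)) (sm, k) n

/-- A new value on the arc `k`. -/
def setx (b : ℕ) (s : NT) (k a : ℕ) : M NT :=
  pow2 b >>= fun H => num (b + 1) >>= fun n => bump n H s.sm (s.tl.get k) k a (s.x.get k) >>=
    fun z => pure ⟨s.inn, s.tl, s.dt, s.x.set k a, z.1⟩

/-- A new tail and a new value on the arc `k`. -/
def setk (b : ℕ) (s : NT) (k p a : ℕ) : M NT :=
  setx b s k 0 >>= fun z => setx b ⟨z.inn, z.tl.set k p, z.dt, z.x, z.sm⟩ k a

@[fun_prop] theorem impl_setx : Impl fun p : ℕ × NT × ℕ × ℕ => setx p.1 p.2.1 p.2.2.1 p.2.2.2 := by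
  unfold setx bump; fun_prop

@[fun_prop] theorem impl_setk :
    Impl fun p : ℕ × NT × ℕ × ℕ × ℕ => setk p.1 p.2.1 p.2.2.1 p.2.2.2.1 p.2.2.2.2 := by
  unfold setk; fun_prop

variable {B b : ℕ}

theorem setx_tri {s : NT} {k a : ℕ} (h : Sm b s) (hx : ∀ k, s.x.get k ≤ 2 ^ b) (hk : k < 2 ^ b)
    (ha : a ≤ 2 ^ b) (hB : 2 ^ b * 2 ^ b ≤ B) (hB' : b + 1 ≤ B) :
    Tri ⟨B, true⟩ (setx b s k a) fun s' t => s'.inn = s.inn ∧ s'.tl = s.tl ∧ s'.dt = s.dt ∧
      s'.x = s.x.set k a ∧ Sm b s' ∧ t = b + 1 := by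
  have h1 : 1 ≤ 2 ^ b := Nat.one_le_two_pow
  have hx' : ∀ i, Function.update s.x.get k a i ≤ 2 ^ b := fun i => by
    rw [Function.update_apply]; split_ifs; exacts [ha, hx i]
  simp only [setx, Tri_bind, Tri_pow2, Tri_num, Tri_pure]
  refine ⟨by nlinarith, hB', (Tri.iterM (fun i z t => z.2 = k / 2 ^ i ∧ t = i ∧ ∀ p j q, j ≤ b →
    q < 2 ^ b → z.1.get (cd (2 ^ b) p q j) = if j < i then
      sub b s.tl.get (Function.update s.x.get k a) p j q else sub b s.tl.get s.x.get p j q)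
    ⟨by simp, rfl, fun p j q h1 h2 => by simpa using h p j q h1 h2⟩ ?_).mono ?_⟩
  · rintro i z t hi ⟨e1, rfl, e2⟩
    have hq : k / 2 ^ t < 2 ^ b := (Nat.div_le_self _ _).trans_lt hk
    have e3 := sub_update s.tl.get s.x.get hk a (s.tl.get k) t (k / 2 ^ t)
    rw [if_pos ⟨rfl, rfl⟩] at e3
    simp only [Tri_bind, Tri_num, Tri_pure, e1]
    rw [e2 _ _ _ (by omega) hq, if_neg (by omega), ← e3]
    refine ⟨(sub_le hx' _ _ _).trans hB, by rw [Nat.div_div_eq_div_mul, pow_succ], trivial, ?_⟩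
    intro p j q h1 h2
    simp only [Arr.get_set, cd_inj (lt_H h1) h2 (lt_H (by omega : t ≤ b)) hq]
    split_ifs with c1 c2 c2
    · rw [c1.1, c1.2.1, c1.2.2]
    · omega
    · rw [e2 _ _ _ h1 h2]
      split_ifs with c3
      · rfl
      · obtain rfl : j = t := by omega
        rw [sub_update _ _ hk, if_neg fun c => c1 ⟨c.1.symm, c.2.symm, rfl⟩]
    · rw [e2 _ _ _ h1 h2, if_neg (by omega)]
  · rintro z t ⟨-, rfl, e⟩
    exact ⟨trivial, trivial, trivial, trivial, fun p j q h1 h2 => by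
      rw [e p j q h1 h2, if_pos (by omega)]; rfl, by omega⟩

theorem setk_tri {s : NT} {k p a : ℕ} (h : Sm b s) (hx : ∀ k, s.x.get k ≤ 2 ^ b) (hk : k < 2 ^ b)
    (ha : a ≤ 2 ^ b) (hB : 2 ^ b * 2 ^ b ≤ B) (hB' : b + 1 ≤ B) :
    Tri ⟨B, true⟩ (setk b s k p a) fun s' t => s'.inn = s.inn ∧ s'.tl = s.tl.set k p ∧
      s'.dt = s.dt ∧ s'.x = s.x.set k a ∧ Sm b s' ∧ t = 2 * b + 2 := by
  refine (setx_tri h hx hk (Nat.zero_le _) hB hB').bind ?_
  rintro z t ⟨e1, e2, e3, e4, e5, rfl⟩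
  refine (setx_tri (s := ⟨z.inn, z.tl.set k p, z.dt, z.x, z.sm⟩) (fun p' j q h1 h2 => ?_)
    (fun i => ?_) hk ha hB hB').mono ?_
  · refine (e5 p' j q h1 h2).trans (sub_congr (fun i => ?_) j q)
    by_cases c : i = k
    · simp [c, e4]
    · simp [c]
  · simp only [e4, Arr.get_set]; split_ifs; exacts [Nat.zero_le _, hx i]
  · rintro s' t ⟨f1, f2, f3, f4, f5, rfl⟩
    refine ⟨f1.trans e1, by rw [f2, e2], f3.trans e3, ?_, f5, by omega⟩
    rw [f4, e4]
    ext i
    simp only [Arr.get_set]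
    split_ifs <;> rfl

/-- New tails and values for the keys of a list. -/
def setAll (b : ℕ) (s : NT) (φ ψ : ℕ → ℕ) (l : List ℕ) : M NT :=
  foldM (fun z k => num (ψ k) >>= fun a => setk b z k (φ k) a) s l

@[fun_prop] theorem Impl.setAll {α : Type} [Rep α] {b : α → ℕ} {s : α → NT} {φ ψ : α → ℕ → ℕ}
    {l : α → List ℕ} (hb : Pure b) (hs : Pure s) (h1 : Pure fun p : α × ℕ => φ p.1 p.2)
    (h2 : Grow fun p : α × ℕ => ψ p.1 p.2) (hl : Pure l) :
    Impl fun a => setAll (b a) (s a) (φ a) (ψ a) (l a) := by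
  unfold P305N.setAll; fun_prop

theorem setAll_tri {s : NT} {φ ψ : ℕ → ℕ} {l : List ℕ} (h : Sm b s) (hx : ∀ k, s.x.get k ≤ 2 ^ b)
    (hl : ∀ k ∈ l, k < 2 ^ b ∧ ψ k ≤ 2 ^ b) (hB : 2 ^ b * 2 ^ b ≤ B) (hB' : b + 1 ≤ B) :
    Tri ⟨B, true⟩ (setAll b s φ ψ l) fun s' t => s'.inn = s.inn ∧ s'.dt = s.dt ∧
      (∀ k, s'.tl.get k = if k ∈ l then φ k else s.tl.get k) ∧
      (∀ k, s'.x.get k = if k ∈ l then ψ k else s.x.get k) ∧ Sm b s' ∧
      t = (2 * b + 3) * l.length := by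
  have h1 : 1 ≤ 2 ^ b := Nat.one_le_two_pow
  refine Tri.foldM (fun pre (s' : NT) t => s'.inn = s.inn ∧ s'.dt = s.dt ∧
      (∀ k, s'.tl.get k = if k ∈ pre then φ k else s.tl.get k) ∧
      (∀ k, s'.x.get k = if k ∈ pre then ψ k else s.x.get k) ∧ Sm b s' ∧
      t = (2 * b + 3) * pre.length) (by simpa using h) ?_
  rintro pre k rest z t rfl ⟨e1, e2, e3, e4, e5, rfl⟩
  have hk := hl k (by simp)
  simp only [Tri_bind, Tri_num]
  refine ⟨by nlinarith [hk.2], (setk_tri e5 (fun i => ?_) hk.1 hk.2 hB hB').mono ?_⟩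
  · rw [e4]; split_ifs with c
    · exact (hl i (by simp [c])).2
    · exact hx i
  · rintro s' t ⟨f1, f2, f3, f4, f5, rfl⟩
    refine ⟨f1.trans e1, f3.trans e2, fun i => ?_, fun i => ?_, f5, by simp; ring⟩
    · rw [f2, Arr.get_set, e3]
      by_cases c : i = k <;> simp [c]
    · rw [f4, Arr.get_set, e4]
      by_cases c : i = k <;> simp [c]

/-- The keys of the arcs into the names of a list. -/
def keysOf (l : List ℕ) : M (List ℕ) :=
  foldM (fun z y => num (3 * y) >>= fun a => num (3 * y + 1) >>= fun a' => num (3 * y + 2) >>=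
    fun a'' => pure (a :: a' :: a'' :: z)) [] l

@[fun_prop] theorem impl_keysOf : Impl keysOf := by unfold keysOf; fun_prop

theorem keysOf_tri {l : List ℕ} (h : ∀ y ∈ l, 3 * y + 2 ≤ B) : Tri ⟨B, true⟩ (keysOf l)
    fun r t => (∀ k, k ∈ r ↔ k / 3 ∈ l) ∧ r.length = 3 * l.length ∧ t = l.length := by
  refine Tri.foldM (fun pre (r : List ℕ) t => (∀ k, k ∈ r ↔ k / 3 ∈ pre) ∧
    r.length = 3 * pre.length ∧ t = pre.length) (by simp) ?_
  rintro pre y rest z t rfl ⟨e1, e2, rfl⟩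
  have := h y (by simp)
  simp only [Tri_bind, Tri_num, Tri_pure, List.mem_cons, e1, List.mem_append, List.length_cons,
    List.length_append, List.not_mem_nil, or_false, List.length_nil]
  refine ⟨by omega, by omega, by omega, fun k => ?_, by omega, trivial⟩
  have : (k = 3 * y ∨ k = 3 * y + 1 ∨ k = 3 * y + 2) ↔ k / 3 = y := by omega
  tauto

/-- The amounts of a list are added. -/
def addL (d : Arr ℕ) (L : List (ℕ × ℕ)) : M (Arr ℕ) :=
  foldM (fun z p => num (z.get p.1 + p.2) >>= fun v => pure (z.set p.1 v)) d L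

@[fun_prop] theorem impl_addL : Impl fun p : Arr ℕ × List (ℕ × ℕ) => addL p.1 p.2 := by
  unfold addL; fun_prop

theorem addL_tri {d : Arr ℕ} {L : List (ℕ × ℕ)} (h : ∀ p ∈ L, d.get p.1 + ms L p.1 ≤ B) :
    Tri ⟨B, true⟩ (addL d L) fun r t => (∀ x, r.get x = d.get x + ms L x) ∧ t = L.length := by
  refine Tri.foldM (fun pre (r : Arr ℕ) t => (∀ x, r.get x = d.get x + ms pre x) ∧
    t = pre.length) (by simp) ?_
  rintro pre p rest z t rfl ⟨e1, rfl⟩
  have := h p (by simp)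
  simp only [ms_append, ms_cons, if_true] at this
  simp only [Tri_bind, Tri_num, Tri_pure, e1, Arr.get_set, ms_append, ms_cons, ms_nil]
  refine ⟨by omega, fun x => ?_, by simp⟩
  by_cases c : x = p.1
  · simp [c, add_assoc]
  · simp [c, Ne.symm c]

/-- The amounts of a list are subtracted. -/
def subL (d : Arr ℕ) (L : List (ℕ × ℕ)) : M (Arr ℕ) :=
  foldP (fun z p => z.set p.1 (z.get p.1 - p.2)) d L

@[fun_prop] theorem impl_subL : Impl fun p : Arr ℕ × List (ℕ × ℕ) => subL p.1 p.2 := by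
  unfold subL; fun_prop

theorem subL_get (L : List (ℕ × ℕ)) (d : Arr ℕ) (x : ℕ) :
    (L.foldl (fun z p => z.set p.1 (z.get p.1 - p.2)) d).get x = d.get x - ms L x := by
  induction L generalizing d with
  | nil => simp
  | cons p L ih =>
    rw [List.foldl_cons, ih, ms_cons, Arr.get_set]
    by_cases c : x = p.1
    · simp [c, Nat.sub_sub]
    · simp [c, Ne.symm c]

/-- The flags of the names of a list are removed. -/
def unfl (d : Arr Bool) (l : List ℕ) : M (Arr Bool) := foldP (fun z y => z.set y false) d l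

@[fun_prop] theorem impl_unfl : Impl fun p : Arr Bool × List ℕ => unfl p.1 p.2 := by
  unfold unfl; fun_prop

theorem setb_get (v : Bool) (l : List ℕ) (d : Arr Bool) (x : ℕ) :
    (l.foldl (fun z y => z.set y v) d).get x = if x ∈ l then v else d.get x := by
  induction l generalizing d with
  | nil => simp
  | cons p l ih =>
    rw [List.foldl_cons, ih, Arr.get_set]
    by_cases c : x = p <;> simp [c]

end Vale.Agent.P305N
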