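import Vale.Agent.P305N.Prim

/-!
# The explicit fractional matching: new names, new arcs, removal, contraction
-/

namespace Vale.Agent.P305N

open Vale.Agent.P305E Vale.Agent.P305C Vale.Agent.P305LC Finset

variable {B b U : ℕ} {V : Vw} {s : NT}

theorem Inv.smk (h : Inv b U V s) : Sm b s := fun p j q h1 h2 => by rw [h.tl]; exact h.sm p j q h1 h2

theorem Inv.x_le' (h : Inv b U V s) (k : ℕ) : s.x.get k ≤ 2 ^ b := (h.x_le k).trans h.ule

theorem Vw.OK.sub_out (h : V.OK b) {x : ℕ → ℕ} (h0 : ∀ k, V.tl k = 0 → x k = 0) {p : ℕ}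
    (hp : p ∉ V.P) (j q : ℕ) : sub b V.tl x p j q = 0 :=
  sum_eq_zero fun k _ => by
    split_ifs with c
    · by_cases a : V.tl k = 0
      · exact h0 k a
      · exact absurd (c.1 ▸ (h.arc k a).1) hp
    · rfl

/-- A new outer name. -/
def rootP (s : NT) (p : ℕ) : NT := ⟨s.inn, s.tl, s.dt.set p 0, s.x, s.sm⟩

theorem root_inv {p : ℕ} (h : Inv b U V s) (h0 : p ≠ 0) (h1 : 3 * p + 2 < 2 ^ b) (h2 : p ∉ V.I)
    (h3 : p ∉ V.P) : Inv b U (V.root p) (rootP s p) where
  ok := ⟨h.ok.zI, by simpa [Vw.root, h0.symm] using h.ok.zP, fun x hx => by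
      simpa [Vw.root] using ⟨fun e => h2 (e ▸ hx), h.ok.dis x hx⟩, h.ok.ltI, fun x hx => by
      rcases mem_insert.1 hx with rfl | hx; exacts [h1, h.ok.ltP x hx],
    fun k hk => ⟨mem_insert_of_mem (h.ok.arc k hk).1, (h.ok.arc k hk).2⟩⟩
  upos := h.upos
  ule := h.ule
  inn := h.inn
  tl := h.tl
  dt := by simp only [rootP, Vw.root, Arr.set_get_fun, h.dt]
  x0 := h.x0
  sm := h.sm
  sat := fun y hy => by
    have : y ≠ p := fun e => h2 (e ▸ hy)
    simpa [Vw.root, rootP, this] using h.sat y hy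
  out := fun q hq => by
    by_cases c : q = p
    · subst c
      exact (h.ok.sub_out h.x0 h3 _ _).trans_le (Nat.zero_le _)
    · simpa [Vw.root, rootP, c] using h.out q ((mem_insert.1 hq).resolve_left c)

/-- A new arc. -/
def addP (s : NT) (k p : ℕ) : NT := ⟨s.inn, s.tl.set k p, s.dt, s.x, s.sm⟩

theorem add_inv {k p : ℕ} (h : Inv b U V s) (h0 : V.tl k = 0) (h1 : k / 3 ∈ V.I) (h2 : p ∈ V.P) :
    Inv b U (V.add k p) (addP s k p) := by
  have e : ∀ p' j q, sub b (Function.update V.tl k p) s.x.get p' j q = sub b V.tl s.x.get p' j q :=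
    fun p' => sub_congr fun i => by
      by_cases c : i = k
      · simp [c, h.x0 k h0]
      · simp [c]
  refine ⟨⟨h.ok.zI, h.ok.zP, h.ok.dis, h.ok.ltI, h.ok.ltP, fun i hi => ?_⟩, h.upos, h.ule, h.inn,
    by simp only [addP, Vw.add, Arr.set_get_fun, h.tl], h.dt, fun i hi => ?_,
    fun p' j q a a' => (h.sm p' j q a a').trans (e _ _ _).symm, h.sat,
    fun q hq => (e _ _ _).trans_le (h.out q hq)⟩
  · by_cases c : i = k
    · simpa [Vw.add, c] using ⟨h2, h1⟩
    · simpa [Vw.add, c] using h.ok.arc i (by simpa [Vw.add, c] using hi)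
  · by_cases c : i = k
    · exact c ▸ h.x0 k h0
    · exact h.x0 i (by simpa [Vw.add, c] using hi)

/-- A new pair. -/
def pairP (b U : ℕ) (s : NT) (k p : ℕ) : M NT :=
  setk b s k p U >>= fun z =>
    pure ⟨z.inn.set (k / 3) true, z.tl, (z.dt.set p 0).set (k / 3) 0, z.x, z.sm⟩

theorem pair_tri {k p : ℕ} (h : Inv b U V s) (h0 : p ≠ 0) (h1 : 3 * p + 2 < 2 ^ b) (h2 : p ∉ V.I)
    (h3 : p ∉ V.P) (g0 : k / 3 ≠ 0) (g1 : 3 * (k / 3) + 2 < 2 ^ b) (g2 : k / 3 ∉ V.I)
    (g3 : k / 3 ∉ V.P) (ne : p ≠ k / 3) (hB : 2 ^ b * 2 ^ b ≤ B) (hB' : b + 1 ≤ B) :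
    Tri ⟨B, true⟩ (pairP b U s k p) fun s' t => Inv b U (V.pair k p) s' ∧ t = 2 * b + 2 := by
  have hk : k < 2 ^ b := by omega
  have z0 : ∀ i, i / 3 = k / 3 → V.tl i = 0 := fun i hi => by
    by_contra a; exact g2 (hi ▸ (h.ok.arc i a).2)
  refine (setk_tri h.smk h.x_le' hk h.ule hB hB').bind ?_
  rintro z t ⟨e1, e2, e3, e4, e5, rfl⟩
  have etl : z.tl.get = Function.update V.tl k p := by rw [e2, Arr.set_get_fun, h.tl]
  have ex : z.x.get = Function.update s.x.get k U := by rw [e4, Arr.set_get_fun]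
  have e : ∀ p' j q, sub b (Function.update V.tl k p) s.x.get p' j q = sub b V.tl s.x.get p' j q :=
    fun p' => sub_congr fun i => by
      by_cases c : i = k
      · simp [c, h.x0 k (z0 k rfl)]
      · simp [c]
  refine ⟨⟨⟨?_, ?_, fun x hx => ?_, fun x hx => ?_, fun x hx => ?_, fun i hi => ?_⟩, h.upos, h.ule,
    fun y => ?_, etl, ?_, fun i hi => ?_, fun p' j q a a' => (e5 p' j q a a').trans (by rw [etl]; rfl),
    fun y hy => ?_, fun q hq => ?_⟩, rfl⟩
  · simpa [Vw.pair, g0.symm] using h.ok.zI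
  · simpa [Vw.pair, h0.symm] using h.ok.zP
  · simp only [Vw.pair, mem_insert, not_or] at hx ⊢
    rcases hx with rfl | hx
    · exact ⟨ne.symm, g3⟩
    · exact ⟨fun e => h2 (e ▸ hx), h.ok.dis x hx⟩
  · rcases mem_insert.1 hx with rfl | hx; exacts [g1, h.ok.ltI x hx]
  · rcases mem_insert.1 hx with rfl | hx; exacts [h1, h.ok.ltP x hx]
  · by_cases c : i = k
    · simp [Vw.pair, c]
    · have := h.ok.arc i (by simpa [Vw.pair, c] using hi)
      simp [Vw.pair, c, this]
  · simp only [e1, Arr.get_set, Vw.pair, mem_insert]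
    by_cases c : y = k / 3 <;> simp [c, h.inn]
  · simp only [Vw.pair, Arr.set_get_fun, e3, h.dt]
  · by_cases c : i = k
    · exact absurd (by simpa [Vw.pair, c] using hi) h0
    · simp only [ex, Function.update_of_ne c]
      exact h.x0 i (by simpa [Vw.pair, c] using hi)
  · simp only [ex, Vw.pair, Function.update_apply]
    by_cases c : y = k / 3
    · have a0 := h.x0 _ (z0 (3 * y) (by omega))
      have a1 := h.x0 _ (z0 (3 * y + 1) (by omega))
      have a2 := h.x0 _ (z0 (3 * y + 2) (by omega))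
      split_ifs <;> omega
    · have hy' := (mem_insert.1 hy).resolve_left c
      have := h.sat y hy'
      have : y ≠ p := fun e => h2 (e ▸ hy')
      split_ifs <;> omega
  · simp only [ex, Vw.pair]
    rw [sub_update _ _ hk, e, Function.update_self]
    by_cases c : q = p
    · subst c
      rw [h.ok.sub_out h.x0 h3]
      split_ifs <;> omega
    · have hq' := (mem_insert.1 hq).resolve_left c
      have : q ≠ k / 3 := fun e => g3 (e ▸ hq')
      rw [if_neg fun a => c a.1.symm, Function.update_of_ne this, Function.update_of_ne c]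
      exact h.out q hq'

/-- The lacks. -/
def lacks (x : ℕ → ℕ) (K : List ℕ) : List (ℕ × ℕ) :=
  K.filterMap fun k => if x k = 0 then none else some (k / 3, x k)

theorem ms_lacks (x : ℕ → ℕ) (K : List ℕ) (y : ℕ) :
    ms (lacks x K) y = (K.map fun k => if k / 3 = y then x k else 0).sum := by
  induction K with
  | nil => rfl
  | cons k K ih =>
    unfold lacks at ih ⊢
    by_cases c : x k = 0
    · simp [c, ih]
    · simp [c, ih, ms_cons]

theorem tot_lacks (x : ℕ → ℕ) (K : List ℕ) : tot (lacks x K) = (K.map x).sum := by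
  induction K with
  | nil => rfl
  | cons k K ih =>
    unfold lacks at ih ⊢
    by_cases c : x k = 0
    · simp [c, ih]
    · simp [c, ih, tot_cons]

theorem sum_keys {K : List ℕ} {H : ℕ} (hn : K.Nodup) (hK : ∀ k ∈ K, k < H) (w : ℕ → ℕ) :
    (K.map w).sum = ∑ k ∈ range H, if k ∈ K then w k else 0 := by
  rw [← List.sum_toFinset _ hn, ← sum_filter]
  congr 1
  ext k
  simpa using hK k

/-- Removal of a closed set. -/
def delP (b : ℕ) (s : NT) (_Ps Ys K : List ℕ) : M (NT × List (ℕ × ℕ)) :=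
  filterMapP (fun k => if s.x.get k = 0 then none else some (k / 3, s.x.get k)) K >>= fun L =>
    keysOf Ys >>= fun ks => appendP K ks >>= fun l => setAll b s (fun _ => 0) (fun _ => 0) l >>=
      fun z => addL s.dt L >>= fun d => unfl s.inn Ys >>= fun f => pure (⟨f, z.tl, d, z.x, z.sm⟩, L)

theorem del_tri {Ps Ys K : List ℕ} (h : Inv b U V s) (hc : ClsL V (Ps, Ys))
    (hK : V.Keys Ps.toFinset Ys.toFinset K) (hB : 2 ^ b * 2 ^ b ≤ B) (hB' : b + 1 ≤ B) :
    Tri ⟨B, true⟩ (delP b s Ps Ys K) fun r t =>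
      Inv b U (V.del Ps.toFinset Ys.toFinset r.2) r.1 ∧
      (∀ q ∈ r.2, q.1 ∈ V.I ∧ q.1 ∉ Ys ∧ 0 < q.2) ∧ r.2.length ≤ K.length ∧
      tot r.2 + U * Ys.length ≤ U * Ps.length + V.dts Ps.toFinset Ys.toFinset ∧
      t ≤ (Ys.length + K.length + 1) * (6 * b + 14) := by
  obtain ⟨n1, n2, c⟩ := hc
  dsimp only at n1 n2 c
  have h1 : 1 ≤ 2 ^ b := Nat.one_le_two_pow
  have hH : 2 ^ b ≤ B := by nlinarith
  have hYs : ∀ y ∈ Ys, 3 * y + 2 < 2 ^ b := fun y hy => h.ok.ltI y (c.sI (by simpa using hy))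
  have nz : ∀ k, V.tl k ∈ Ps.toFinset → V.tl k ≠ 0 := fun k a e => h.ok.zP (e ▸ c.sP a)
  have hKl : ∀ k ∈ K, k < 2 ^ b := fun k hk => h.ok.key_lt (nz k ((hK.2 k).1 hk).1)
  have hL : ∀ q ∈ lacks s.x.get K, q.1 ∈ V.I ∧ q.1 ∉ Ys ∧ 0 < q.2 := fun q hq => by
    obtain ⟨k, hk, e⟩ := List.mem_filterMap.1 hq
    split_ifs at e with a
    obtain rfl := Option.some.inj e
    have := (hK.2 k).1 hk
    exact ⟨(h.ok.arc k (nz k this.1)).2, by simpa using this.2, Nat.pos_of_ne_zero a⟩
  have hms : ∀ y ∈ V.I, y ∉ Ys → ms (lacks s.x.get K) y =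
      (if V.tl (3 * y) ∈ Ps.toFinset then s.x.get (3 * y) else 0) +
      (if V.tl (3 * y + 1) ∈ Ps.toFinset then s.x.get (3 * y + 1) else 0) +
      (if V.tl (3 * y + 2) ∈ Ps.toFinset then s.x.get (3 * y + 2) else 0) := fun y hy hy' => by
    rw [ms_lacks, sum_keys hK.1 hKl, ← sum_head (fun k => if V.tl k ∈ Ps.toFinset then s.x.get k
      else 0) (h.ok.ltI y hy)]
    refine sum_congr rfl fun k _ => ?_
    by_cases a : k / 3 = y
    · simp [a, hK.2 k, hy']
    · simp [a]
  have hlen : (lacks s.x.get K).length ≤ K.length := List.length_filterMap_le _ _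
  simp only [delP, Tri_bind, Tri_filterMapP, Tri_appendP, unfl, Tri_foldP, Tri_pure]
  refine (keysOf_tri fun y hy => (hYs y hy).le.trans hH).mono ?_
  rintro ks t1 ⟨k1, k2, rfl⟩
  refine (setAll_tri h.smk h.x_le' (fun k hk => ⟨?_, Nat.zero_le _⟩) hB hB').mono ?_
  · rcases List.mem_append.1 hk with hk | hk
    · exact hKl k hk
    · have := hYs _ ((k1 k).1 hk); omega
  rintro z t2 ⟨-, -, e3, e4, e5, rfl⟩
  have mem : ∀ k, V.tl k ≠ 0 → (k ∈ K ++ ks ↔ V.tl k ∈ Ps.toFinset) := fun k a => by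
    rw [List.mem_append, hK.2, k1, ← List.mem_toFinset (l := Ys)]
    have := c.cl k
    tauto
  have etl : z.tl.get = fun k => if V.tl k ∈ Ps.toFinset then 0 else V.tl k := by
    ext k
    rw [e3, h.tl]
    by_cases a : V.tl k = 0
    · simp [a]
    · simp only [mem k a]
  have ex : ∀ k, z.x.get k = if V.tl k ∈ Ps.toFinset then 0 else s.x.get k := fun k => by
    rw [e4]
    by_cases a : V.tl k = 0
    · simp [h.x0 k a]
    · simp only [mem k a]
  refine (addL_tri (L := lacks s.x.get K) fun p hp => ?_).mono ?_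
  · have a := hL p hp
    have := h.sat _ a.1
    have := h.ule
    rw [hms _ a.1 a.2.1, h.dt]
    split_ifs <;> omega
  rintro d t3 ⟨d1, rfl⟩
  refine ⟨⟨⟨fun a => h.ok.zI (mem_sdiff.1 a).1, fun a => h.ok.zP (mem_sdiff.1 a).1,
    fun x hx a => h.ok.dis x (mem_sdiff.1 hx).1 (mem_sdiff.1 a).1,
    fun x hx => h.ok.ltI x (mem_sdiff.1 hx).1, fun x hx => h.ok.ltP x (mem_sdiff.1 hx).1,
    fun k hk => ?_⟩, h.upos, h.ule, fun y => ?_, etl, funext fun x => by rw [d1, h.dt]; rfl,
    fun k hk => ?_, fun p j q a a' => (e5 p j q a a').trans (by rw [etl]; rfl), fun y hy => ?_,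
    fun p hp => ?_⟩, hL, hlen, ?_, ?_⟩
  · simp only [Vw.del] at hk ⊢
    split_ifs at hk ⊢ with a
    · exact absurd rfl hk
    · exact ⟨mem_sdiff.2 ⟨(h.ok.arc k hk).1, a⟩,
        mem_sdiff.2 ⟨(h.ok.arc k hk).2, fun a' => a (c.cl k a' hk)⟩⟩
  · simp only [setb_get, Vw.del, mem_sdiff, List.mem_toFinset]
    by_cases a : y ∈ Ys <;> simp [a, h.inn]
  · simp only [Vw.del] at hk
    simp only [ex]
    split_ifs at hk ⊢
    · rfl
    · exact h.x0 k hk
  · obtain ⟨a, a'⟩ := mem_sdiff.1 hy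
    have := h.sat y a
    have e := hms y a (by simpa using a')
    simp only [ex, Vw.del]
    unfold lacks at e
    rw [e]
    split_ifs <;> omega
  · obtain ⟨a, a'⟩ := mem_sdiff.1 hp
    refine le_trans (le_of_eq (sub_congr (fun k => ?_) _ _)) ((h.out p a).trans ?_)
    · simp only [ex, Vw.del]
      by_cases e : V.tl k ∈ Ps.toFinset
      · have : V.tl k ≠ p := fun e' => a' (e' ▸ e)
        simp only [e, if_true, ite_self, if_neg this]
      · simp only [e, if_false]
    · simp only [Vw.del]; omega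
  · have e := h.ident c
    have e' : tot (lacks s.x.get K) = expo b V s.x.get Ps.toFinset Ys.toFinset := by
      rw [tot_lacks, sum_keys hK.1 hKl]
      exact sum_congr rfl fun k _ => by simp only [hK.2 k]
    rw [List.toFinset_card_of_nodup n1, List.toFinset_card_of_nodup n2] at e
    unfold lacks at e'
    omega
  · rw [List.length_append, k2]
    generalize (lacks s.x.get K).length = a at hlen ⊢
    generalize K.length = x at hlen ⊢
    generalize Ys.length = y
    nlinarith [Nat.zero_le (b * x), Nat.zero_le (b * y)]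

/-- Contraction of a closed set. -/
def conP (b : ℕ) (s : NT) (Ps Ys : List ℕ) (r : ℕ) (K : List ℕ) : M NT :=
  keysOf Ys >>= fun ks => setAll b s (fun _ => 0) (fun _ => 0) ks >>= fun z =>
    setAll b z (fun _ => r) (fun k => s.x.get k) K >>= fun z' => sumP (fun x => s.dt.get x) Ps >>=
      fun d => sumP (fun x => s.dt.get x) Ys >>= fun d' => num (d + d') >>= fun e =>
        unfl s.inn Ys >>= fun f => pure ⟨f, z'.tl, s.dt.set r e, z'.x, z'.sm⟩

theorem con_tri {Ps Ys K : List ℕ} {r : ℕ} (h : Inv b U V s) (hc : ClsL V (Ps, Ys)) (hr : r ∈ Ps)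
    (hl : Ps.length = Ys.length + 1) (hK : V.Keys (Ps.toFinset.erase r) Ys.toFinset K)
    (hd : V.dts Ps.toFinset Ys.toFinset ≤ 2 ^ b) (hB : 2 ^ b * 2 ^ b ≤ B) (hB' : b + 1 ≤ B) :
    Tri ⟨B, true⟩ (conP b s Ps Ys r K) fun s' t =>
      Inv b U (V.con Ps.toFinset Ys.toFinset r) s' ∧
        t ≤ (Ps.length + K.length + 1) * (6 * b + 14) := by
  obtain ⟨n1, n2, c⟩ := hc
  dsimp only at n1 n2 c
  have h1 : 1 ≤ 2 ^ b := Nat.one_le_two_pow
  have hH : 2 ^ b ≤ B := by nlinarith
  have hYs : ∀ y ∈ Ys, 3 * y + 2 < 2 ^ b := fun y hy => h.ok.ltI y (c.sI (by simpa using hy))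
  have nz : ∀ k, V.tl k ∈ Ps.toFinset → V.tl k ≠ 0 := fun k a e => h.ok.zP (e ▸ c.sP a)
  have hKl : ∀ k ∈ K, k < 2 ^ b := fun k hk =>
    h.ok.key_lt (nz k (mem_of_mem_erase ((hK.2 k).1 hk).1))
  have hrP : r ∈ V.P := c.sP (by simpa using hr)
  have r0 : r ≠ 0 := fun e => h.ok.zP (e ▸ hrP)
  have s1 : (Ps.map fun x => s.dt.get x).sum = ∑ x ∈ Ps.toFinset, V.dt x := by
    rw [List.sum_toFinset _ n1, h.dt]
  have s2 : (Ys.map fun x => s.dt.get x).sum = ∑ x ∈ Ys.toFinset, V.dt x := by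
    rw [List.sum_toFinset _ n2, h.dt]
  simp only [conP, Tri_bind, Tri_sumP, Tri_num, unfl, Tri_foldP, Tri_pure, s1, s2]
  refine (keysOf_tri fun y hy => (hYs y hy).le.trans hH).mono ?_
  rintro ks t1 ⟨k1, k2, rfl⟩
  refine (setAll_tri h.smk h.x_le' (fun k hk => ⟨?_, Nat.zero_le _⟩) hB hB').mono ?_
  · have := hYs _ ((k1 k).1 hk); omega
  rintro z t2 ⟨-, -, e3, e4, e5, rfl⟩
  refine (setAll_tri e5 (fun k => ?_) (fun k hk => ⟨hKl k hk, h.x_le' k⟩) hB hB').mono ?_
  · rw [e4]; split_ifs; exacts [Nat.zero_le _, h.x_le' k]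
  rintro z' t3 ⟨-, -, f3, f4, f5, rfl⟩
  have etl : z'.tl.get = fun k => if k / 3 ∈ Ys.toFinset then 0 else
      if V.tl k ∈ Ps.toFinset then r else V.tl k := by
    ext k
    simp only [f3, e3, h.tl, hK.2 k, k1, mem_erase, List.mem_toFinset]
    by_cases a : k / 3 ∈ Ys
    · simp [a]
    · by_cases a' : V.tl k = r <;> simp [a, a']
  have ex : ∀ k, z'.x.get k = if k / 3 ∈ Ys.toFinset then 0 else s.x.get k := fun k => by
    simp only [f4, e4, hK.2 k, k1, List.mem_toFinset]
    by_cases a : k / 3 ∈ Ys <;> simp [a]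
  unfold Vw.dts at hd
  refine ⟨by omega, by omega, by omega, ⟨⟨fun a => h.ok.zI (mem_sdiff.1 a).1, fun a => ?_,
    fun x hx a => ?_, fun x hx => h.ok.ltI x (mem_sdiff.1 hx).1, fun x hx => ?_,
    fun k hk => ?_⟩, h.upos, h.ule, fun y => ?_, etl, by simp only [Arr.set_get_fun, h.dt]; rfl,
    fun k hk => ?_, fun p j q a a' => (f5 p j q a a').trans (by rw [etl]; rfl), fun y hy => ?_,
    fun p hp => ?_⟩, ?_⟩
  · rcases mem_insert.1 a with a | a
    · exact r0 a.symm
    · exact h.ok.zP (mem_sdiff.1 a).1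
  · rcases mem_insert.1 a with a | a
    · exact h.ok.dis x (mem_sdiff.1 hx).1 (a ▸ hrP)
    · exact h.ok.dis x (mem_sdiff.1 hx).1 (mem_sdiff.1 a).1
  · rcases mem_insert.1 hx with a | a
    · exact a ▸ h.ok.ltP r hrP
    · exact h.ok.ltP x (mem_sdiff.1 a).1
  · simp only [Vw.con] at hk ⊢
    split_ifs at hk ⊢ with a a'
    · exact absurd rfl hk
    · exact ⟨mem_insert_self _ _, mem_sdiff.2 ⟨(h.ok.arc k (nz k a')).2, a⟩⟩
    · exact ⟨mem_insert_of_mem (mem_sdiff.2 ⟨(h.ok.arc k hk).1, a'⟩),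
        mem_sdiff.2 ⟨(h.ok.arc k hk).2, a⟩⟩
  · simp only [setb_get, Vw.con, mem_sdiff, List.mem_toFinset]
    by_cases a : y ∈ Ys <;> simp [a, h.inn]
  · simp only [Vw.con] at hk
    simp only [ex]
    split_ifs at hk ⊢
    · rfl
    · exact absurd hk r0
    · exact h.x0 k hk
  · obtain ⟨a, a'⟩ := mem_sdiff.1 hy
    have : y ≠ r := fun e => h.ok.dis y a (e ▸ hrP)
    simp only [ex, Vw.con, Function.update_of_ne this, show 3 * y / 3 = y by omega,
      show (3 * y + 1) / 3 = y by omega, show (3 * y + 2) / 3 = y by omega, if_neg a']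
    exact h.sat y a
  · by_cases a : p = r
    · subst a
      have e := h.ident c
      rw [List.toFinset_card_of_nodup n1, List.toFinset_card_of_nodup n2, hl, Nat.mul_succ] at e
      have e' : sub b (V.con Ps.toFinset Ys.toFinset p).tl z'.x.get p b 0 =
          expo b V s.x.get Ps.toFinset Ys.toFinset := by
        rw [sub_top]
        refine sum_congr rfl fun k _ => ?_
        simp only [ex, Vw.con]
        by_cases a1 : k / 3 ∈ Ys.toFinset
        · simp only [a1, if_true, ite_self, not_true, and_false, if_false]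
        · by_cases a2 : V.tl k ∈ Ps.toFinset
          · simp only [a1, a2, if_true, if_false, not_false_iff, and_self]
          · have : V.tl k ≠ p := fun e => a2 (e ▸ by simpa using hr)
            simp only [a1, a2, if_false, false_and, if_neg this]
      rw [e']
      simp only [Vw.con, Function.update_self]
      omega
    · obtain ⟨a1, a2⟩ := mem_sdiff.1 ((mem_insert.1 hp).resolve_left a)
      refine le_trans (le_of_eq (sub_congr (fun k => ?_) _ _)) ((h.out p a1).trans ?_)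
      · simp only [ex, Vw.con]
        by_cases e1 : k / 3 ∈ Ys.toFinset
        · simp only [e1, if_true, ite_self]
          split_ifs with e2
          · exact absurd (e2 ▸ c.cl k e1 fun e => h.ok.zP (e ▸ e2 ▸ a1)) a2
          · rfl
        · by_cases e2 : V.tl k ∈ Ps.toFinset
          · have : V.tl k ≠ p := fun e' => a2 (e' ▸ e2)
            simp only [e1, e2, if_true, if_false, if_neg this, if_neg (Ne.symm a)]
          · simp only [e1, e2, if_false]
      · simp only [Vw.con, Function.update_of_ne a, le_refl]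
  · rw [k2, hl]
    nlinarith [Nat.zero_le b, Nat.zero_le K.length, Nat.zero_le Ys.length]

end Vale.Agent.P305N
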